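import Mathlib

/-!
# Row 34: Stepanov's auxiliary polynomial

For `f` of degree at most `7` with a simple root and `f 0 ≠ 0` over a field with `q = 2n+1`
elements, the number of `x` with `f x ≠ 0` and `(f x)^n = a` is at most `q/2 + O(√q)`.
-/

set_option autoImplicit false

namespace Crest.Agent.R34

open Polynomial Finset

section deg
variable {F : Type} [Field F]

/-- all coefficients (in the outer variable) have degree at most `n` in the inner variable -/
def DegLE (n : ℕ) (P : F[X][X]) : Prop := ∀ k, (P.coeff k).natDegree ≤ n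

lemma DegLE.mono {n n' : ℕ} {P : F[X][X]} (h : DegLE n P) (hn : n ≤ n') : DegLE n' P :=
  fun k => (h k).trans hn

lemma DegLE.add {n : ℕ} {P Q : F[X][X]} (h : DegLE n P) (h' : DegLE n Q) : DegLE n (P + Q) :=
  fun k => by rw [coeff_add]; exact natDegree_add_le_of_degree_le (h k) (h' k)

lemma DegLE.sub {n : ℕ} {P Q : F[X][X]} (h : DegLE n P) (h' : DegLE n Q) : DegLE n (P - Q) :=
  fun k => by rw [coeff_sub]; exact (natDegree_sub_le _ _).trans (max_le (h k) (h' k))

lemma DegLE.sum {ι : Type*} {n : ℕ} (s : Finset ι) {P : ι → F[X][X]} (h : ∀ i ∈ s, DegLE n (P i)) :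
    DegLE n (∑ i ∈ s, P i) := fun k => by
  rw [finsetSum_coeff]
  exact natDegree_sum_le_of_forall_le _ _ fun i hi => h i hi k

lemma DegLE.mul {n n' : ℕ} {P Q : F[X][X]} (h : DegLE n P) (h' : DegLE n' Q) :
    DegLE (n + n') (P * Q) := fun k => by
  rw [coeff_mul]
  exact natDegree_sum_le_of_forall_le _ _ fun i _ =>
    natDegree_mul_le.trans (add_le_add (h _) (h' _))

lemma DegLE.C {n : ℕ} {p : F[X]} (h : p.natDegree ≤ n) : DegLE n (C p) := fun k => by
  rw [coeff_C]; split_ifs <;> simp [h]

lemma DegLE.X : DegLE 0 (X : F[X][X]) := fun k => by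
  rw [coeff_X]; split_ifs <;> simp

lemma DegLE.pow {n : ℕ} {P : F[X][X]} (h : DegLE n P) (k : ℕ) : DegLE (k * n) (P ^ k) := by
  induction k with
  | zero => simpa using DegLE.C (p := (1 : F[X])) (n := 0) (by simp)
  | succ k ih => rw [pow_succ, Nat.succ_mul]; exact ih.mul h

lemma DegLE.smul {n : ℕ} {P : F[X][X]} (h : DegLE n P) (c : F) : DegLE n (c • P) := fun k => by
  rw [coeff_smul]; exact (natDegree_smul_le _ _).trans (h k)

lemma DegLE.natCast (m : ℕ) : DegLE 0 (m : F[X][X]) := by
  simpa using DegLE.C (p := (m : F[X])) (n := 0) (by simp)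

/-- `Y + T` -/
noncomputable def yt : F[X][X] := X + Polynomial.C X

lemma degLE_yt : DegLE 1 (yt : F[X][X]) :=
  (DegLE.X.mono zero_le_one).add (DegLE.C natDegree_X_le)

lemma degLE_aeval (f : F[X]) : DegLE f.natDegree (aeval (yt : F[X][X]) f) := by
  rw [aeval_eq_sum_range]
  refine DegLE.sum _ fun i hi => ((degLE_yt.pow i).smul _).mono ?_
  have := Finset.mem_range.1 hi
  omega

/-- specialisation `Y := x` -/
noncomputable def ev (x : F) : F[X][X] →+* F[X] := mapRingHom (evalRingHom x)

lemma ev_C (x : F) (p : F[X]) : ev x (Polynomial.C p) = Polynomial.C (p.eval x) := by simp [ev]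
lemma ev_X (x : F) : ev x X = X := by simp [ev]
lemma ev_yt (x : F) : ev x yt = X + Polynomial.C x := by simp [ev, yt]
lemma ev_smul (x c : F) (P : F[X][X]) : ev x (c • P) = c • ev x P := by
  ext k; simp [ev]
lemma ev_aeval (x : F) (f : F[X]) : ev x (aeval yt f) = taylor x f := by
  induction f using Polynomial.induction_on' with
  | add p q hp hq => simp only [map_add, hp, hq]
  | monomial n a =>
    rw [aeval_monomial, map_mul, map_pow, ev_yt, taylor_monomial]
    congr 1
    simp [ev]

end deg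

section main
variable {F : Type} [Field F] [Fintype F]

lemma add_C_pow_card (x : F) :
    (X + C x : F[X]) ^ Fintype.card F = X ^ Fintype.card F + C x := by
  rw [← FiniteField.expand_card]; simp

lemma key_vanish [DecidableEq F] {f : F[X]} (hf0 : f.eval 0 ≠ 0) {c : F}
    (hc : f.rootMultiplicity c = 1) {n D : ℕ} (hq : Fintype.card F = 2 * n + 1)
    (hD : 2 * D + f.natDegree < Fintype.card F) {r s : F[X]} (hr : r.natDegree ≤ D)
    (hs : s.natDegree ≤ D) (h : X ^ Fintype.card F ∣ r + s * f ^ n) : r = 0 ∧ s = 0 := by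
  have hf : f ≠ 0 := by rintro rfl; simp at hf0
  have h1 : X ^ Fintype.card F ∣ f ^ Fintype.card F - C (f.eval 0) := by
    rw [← FiniteField.expand_card f, ← coeff_zero_eq_eval_zero]
    have e := congrArg (expand F (Fintype.card F)) (X_mul_divX_add f)
    rw [map_add, map_mul, expand_X, expand_C] at e
    rw [← e, add_sub_cancel_right]
    exact dvd_mul_right _ _
  have h2 : X ^ Fintype.card F ∣ r ^ 2 * f - s ^ 2 * C (f.eval 0) := by
    have e : r ^ 2 * f - s ^ 2 * C (f.eval 0) = (r + s * f ^ n) * ((r - s * f ^ n) * f) +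
        s ^ 2 * (f ^ Fintype.card F - C (f.eval 0)) := by rw [hq]; ring
    rw [e]
    exact dvd_add (h.mul_right _) (h1.mul_left _)
  have h3 : r ^ 2 * f - s ^ 2 * C (f.eval 0) = 0 := by
    refine eq_zero_of_dvd_of_natDegree_lt h2 ?_
    rw [natDegree_X_pow]
    refine (natDegree_sub_le _ _).trans_lt (max_lt ?_ ?_)
    · have := natDegree_mul_le (p := r ^ 2) (q := f)
      have := natDegree_pow_le (p := r) (n := 2)
      omega
    · have := natDegree_mul_C_le (s ^ 2) (f.eval 0)
      have := natDegree_pow_le (p := s) (n := 2)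
      omega
  have h4 : r ^ 2 * f = s ^ 2 * C (f.eval 0) := sub_eq_zero.1 h3
  have hC : (C (f.eval 0) : F[X]) ≠ 0 := C_ne_zero.2 hf0
  by_cases hr0 : r = 0
  · refine ⟨hr0, ?_⟩
    rw [hr0] at h4
    have : s ^ 2 = 0 := by
      have : s ^ 2 * C (f.eval 0) = 0 := by rw [← h4]; simp
      exact (mul_eq_zero.1 this).resolve_right hC
    exact pow_eq_zero_iff (by norm_num) |>.1 this
  · exfalso
    have hne : r ^ 2 * f ≠ 0 := mul_ne_zero (pow_ne_zero _ hr0) hf
    have hne' : s ^ 2 * C (f.eval 0) ≠ 0 := h4 ▸ hne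
    have hs0 : s ≠ 0 := by rintro rfl; simp at hne'
    have e := congrArg (rootMultiplicity c) h4
    rw [rootMultiplicity_mul hne, rootMultiplicity_mul hne', sq, sq,
      rootMultiplicity_mul (mul_ne_zero hr0 hr0), rootMultiplicity_mul (mul_ne_zero hs0 hs0), hc,
      rootMultiplicity_C] at e
    omega

lemma nonvanish [DecidableEq F] {f : F[X]} (hf0 : f.eval 0 ≠ 0) {c : F}
    (hc : f.rootMultiplicity c = 1) {n D : ℕ} (hq : Fintype.card F = 2 * n + 1)
    (hD : 2 * D + f.natDegree < Fintype.card F) (J : ℕ) : ∀ (r s : ℕ → F[X]),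
    (∀ j, (r j).natDegree ≤ D) → (∀ j, (s j).natDegree ≤ D) →
    ∑ j ∈ range J, (r j + s j * f ^ n) * (X ^ Fintype.card F) ^ j = 0 →
    ∀ j < J, r j = 0 ∧ s j = 0 := by
  induction J with
  | zero => intro _ _ _ _ _ j hj; omega
  | succ J ih =>
    intro r s hr hs h
    rw [Finset.sum_range_succ'] at h
    have e : ∑ j ∈ range J, (r (j + 1) + s (j + 1) * f ^ n) * (X ^ Fintype.card F) ^ (j + 1) =
        X ^ Fintype.card F *
          ∑ j ∈ range J, (r (j + 1) + s (j + 1) * f ^ n) * (X ^ Fintype.card F) ^ j := by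
      rw [Finset.mul_sum]; exact Finset.sum_congr rfl fun j _ => by ring
    rw [e, pow_zero, mul_one] at h
    have h0 := key_vanish hf0 hc hq hD (hr 0) (hs 0)
      ⟨-∑ j ∈ range J, (r (j + 1) + s (j + 1) * f ^ n) * (X ^ Fintype.card F) ^ j, by
        linear_combination h⟩
    rw [h0.1, h0.2, zero_mul, add_zero, add_zero] at h
    have h1 := (mul_eq_zero.1 h).resolve_left (pow_ne_zero _ X_ne_zero)
    have h2 := ih (fun j => r (j + 1)) (fun j => s (j + 1)) (fun j => hr _) (fun j => hs _) h1
    intro j hj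
    rcases j with _ | j
    · exact h0
    · exact h2 j (by omega)

/-- truncated binomial expansion of `f(Y)^l (f(Y+T)/f(Y))^n` -/
noncomputable def HH (f : F[X]) (n l : ℕ) : F[X][X] :=
  ∑ i ∈ range l, (aeval yt f - C f) ^ i * C f ^ (l - i) * (n.choose i : F[X][X])

omit [Fintype F] in
lemma degLE_HH (f : F[X]) (n l : ℕ) : DegLE (l * f.natDegree) (HH f n l) := by
  refine DegLE.sum _ fun i hi => ?_
  have h1 := ((degLE_aeval f).sub (DegLE.C le_rfl)).pow i
  have h2 := (DegLE.C (p := f) le_rfl).pow (l - i)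
  refine ((h1.mul h2).mul (DegLE.natCast _)).mono (le_of_eq ?_)
  have := (Finset.mem_range.1 hi).le
  rw [add_zero, ← add_mul, Nat.add_sub_cancel' this]

omit [Fintype F] in
lemma dvd_HH (f : F[X]) {n l : ℕ} (hl : l ≤ n + 1) (x a : F) (ha : (f.eval x) ^ n = a) :
    X ^ l ∣ C (f.eval x) ^ l * taylor x f ^ n - C a * ev x (HH f n l) := by
  set U := taylor x f - C (f.eval x) with hU
  have hXU : X ∣ U := by
    rw [X_dvd_iff, hU, coeff_sub, taylor_coeff_zero, coeff_C_zero, sub_self]
  have e1 : taylor x f = U + C (f.eval x) := by rw [hU]; ring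
  have e2 : ev x (HH f n l) =
      ∑ i ∈ range l, U ^ i * C (f.eval x) ^ (l - i) * (n.choose i : F[X]) := by
    simp only [HH, map_sum, map_mul, map_pow, map_sub, ev_aeval, ev_C, map_natCast, hU]
  rw [e2, e1, add_pow, ← Finset.sum_range_add_sum_Ico _ hl, mul_add, Finset.mul_sum,
    Finset.mul_sum (range l)]
  have e3 : ∑ i ∈ range l, C (f.eval x) ^ l * (U ^ i * C (f.eval x) ^ (n - i) * (n.choose i : F[X])) =
      ∑ i ∈ range l, C a * (U ^ i * C (f.eval x) ^ (l - i) * (n.choose i : F[X])) := by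
    refine Finset.sum_congr rfl fun i hi => ?_
    have hi' := Finset.mem_range.1 hi
    have : C (f.eval x) ^ l * C (f.eval x) ^ (n - i) = C a * C (f.eval x) ^ (l - i) := by
      rw [← ha, map_pow, ← pow_add, ← pow_add]; congr 1; omega
    linear_combination (U ^ i * (n.choose i : F[X])) * this
  rw [e3, add_sub_cancel_left]
  refine Dvd.dvd.mul_left (Finset.dvd_sum fun i hi => ?_) _
  have := (Finset.mem_Ico.1 hi).1
  exact (((pow_dvd_pow_of_dvd hXU l).trans (pow_dvd_pow U this)).mul_right _).mul_right _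

theorem stepanov_count [DecidableEq F] {f : F[X]} (hf0 : f.eval 0 ≠ 0) {c : F}
    (hc : f.rootMultiplicity c = 1) {n D J l : ℕ} (hq : Fintype.card F = 2 * n + 1)
    (hD : 2 * D + f.natDegree < Fintype.card F) (hl : l ≤ n + 1)
    (hJ : l * (D + J + l * f.natDegree + 1) < 2 * J * (D + 1)) (a : F) (S : Finset F)
    (hS : ∀ x ∈ S, f.eval x ≠ 0 ∧ (f.eval x) ^ n = a) :
    l * S.card + Fintype.card F ≤ D + n * f.natDegree + J * Fintype.card F := by
  set q := Fintype.card F with hqdef
  set E := D + J + l * f.natDegree + 1 with hE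
  let P : Bool × Fin J × Fin (D + 1) → F[X][X] := fun i =>
    C X ^ (i.2.1 : ℕ) * yt ^ (i.2.2 : ℕ) * (if i.1 then C (C a) * HH f n l else C f ^ l)
  have hP : ∀ i, DegLE (E - 1) (P i) := by
    rintro ⟨b, j, d⟩
    have h1 := ((DegLE.C (p := (X : F[X])) natDegree_X_le).pow j).mul (degLE_yt.pow d)
    have h2 : DegLE (l * f.natDegree) (if b then C (C a) * HH f n l else C f ^ l) := by
      split_ifs
      · simpa using (DegLE.C (p := C a) (n := 0) (by simp)).mul (degLE_HH f n l)
      · exact (DegLE.C le_rfl).pow l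
    refine (h1.mul h2).mono ?_
    have := j.2
    have := d.2
    omega
  let v : Bool × Fin J × Fin (D + 1) → (Fin l × Fin E → F) := fun i k => ((P i).coeff k.1).coeff k.2
  have hdep : ¬ LinearIndependent F v := by
    intro h
    have := h.fintype_card_le_finrank
    simp only [Fintype.card_prod, Fintype.card_bool, Fintype.card_fin, Module.finrank_fintype_fun_eq_card] at this
    rw [mul_assoc] at hJ
    omega
  obtain ⟨co, hco, i₀, hi₀⟩ := Fintype.not_linearIndependent_iff.1 hdep
  have hdvd : X ^ l ∣ ∑ i, co i • P i := by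
    rw [X_pow_dvd_iff]
    intro k hk
    have hdeg := DegLE.sum Finset.univ (fun i _ => (hP i).smul (co i)) k
    ext e
    by_cases he : e < E
    · have := congrFun hco (⟨k, hk⟩, ⟨e, he⟩)
      simpa [v, finsetSum_coeff] using this
    · rw [coeff_zero]
      exact coeff_eq_zero_of_natDegree_lt (by omega)
  let pol : Bool → ℕ → F[X] := fun b j =>
    if h : j < J then ∑ d : Fin (D + 1), co (b, ⟨j, h⟩, d) • X ^ (d : ℕ) else 0
  have hpol : ∀ b j, (pol b j).natDegree ≤ D := by
    intro b j
    simp only [pol]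
    split_ifs
    · refine natDegree_sum_le_of_forall_le _ _ fun d _ => (natDegree_smul_le _ _).trans ?_
      rw [natDegree_X_pow]; have := d.2; omega
    · simp
  set R : F[X] := ∑ j ∈ range J, (pol false j + pol true j * f ^ n) * (X ^ q) ^ j with hR
  have hR0 : R ≠ 0 := by
    intro h
    have h1 := nonvanish hf0 hc hq hD J (pol false) (pol true) (hpol false) (hpol true) h
    obtain ⟨b, j, d⟩ := i₀
    have h2 : pol b j = 0 := by
      cases b
      · exact (h1 j j.2).1
      · exact (h1 j j.2).2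
    have h3 := congrArg (fun p => coeff p d) h2
    simp only [pol, j.2, dif_pos, finsetSum_coeff, coeff_smul, coeff_X_pow, coeff_zero,
      smul_eq_mul, mul_ite, mul_one, mul_zero, Fin.val_inj, Finset.sum_ite_eq, Finset.mem_univ,
      if_true] at h3
    exact hi₀ h3
  have hRsum : R = ∑ i : Bool × Fin J × Fin (D + 1),
      co i • ((X ^ q) ^ (i.2.1 : ℕ) * X ^ (i.2.2 : ℕ) * (if i.1 then f ^ n else 1)) := by
    rw [hR, ← Fin.sum_univ_eq_sum_range (fun j => (pol false j + pol true j * f ^ n) * (X ^ q) ^ j),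
      Fintype.sum_prod_type, Fintype.sum_bool, Fintype.sum_prod_type, Fintype.sum_prod_type,
      ← Finset.sum_add_distrib]
    refine Finset.sum_congr rfl fun j _ => ?_
    simp only [pol, j.2, dif_pos, if_true, Bool.false_eq_true, if_false, add_mul, Finset.sum_mul]
    rw [add_comm]
    congr 1 <;> refine Finset.sum_congr rfl fun d _ => ?_ <;>
      simp only [smul_eq_C_mul] <;> ring
  have hlq : l ≤ q := by omega
  have hvan : ∀ x ∈ S, (X - C x) ^ l ∣ R := by
    intro x hx
    obtain ⟨hx0, hxa⟩ := hS x hx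
    have h1 : X ^ l ∣ ∑ i, co i • ev x (P i) := by
      have := map_dvd (ev x) hdvd
      rwa [map_pow, ev_X, map_sum, Finset.sum_congr rfl (fun i _ => ev_smul x (co i) (P i))] at this
    have hXq : ∀ j : ℕ, X ^ l ∣ (X ^ q + C x) ^ j - (C x : F[X]) ^ j := fun j =>
      (pow_dvd_pow X hlq).trans (by
        have := sub_dvd_pow_sub_pow (X ^ q + C x : F[X]) (C x) j
        rwa [add_sub_cancel_right] at this)
    have h2 : X ^ l ∣ C (f.eval x) ^ l * taylor x R - ∑ i, co i • ev x (P i) := by
      rw [hRsum, map_sum, Finset.mul_sum, ← Finset.sum_sub_distrib]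
      refine Finset.dvd_sum fun i _ => ?_
      obtain ⟨b, j, d⟩ := i
      rw [map_smul, mul_smul_comm, ← smul_sub, smul_eq_C_mul]
      refine Dvd.dvd.mul_left ?_ _
      have hj := hXq j
      have hH := dvd_HH f hl x a hxa
      cases b
      · simp only [P, Bool.false_eq_true, if_false, mul_one, taylor_mul, taylor_pow, taylor_X,
          map_mul, map_pow, ev_C, ev_yt, eval_X, hqdef, add_C_pow_card]
        have e : C (f.eval x) ^ l * ((X ^ q + C x) ^ (j : ℕ) * (X + C x) ^ (d : ℕ)) -
            C x ^ (j : ℕ) * (X + C x) ^ (d : ℕ) * C (f.eval x) ^ l =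
            ((X ^ q + C x) ^ (j : ℕ) - C x ^ (j : ℕ)) * ((X + C x) ^ (d : ℕ) * C (f.eval x) ^ l) := by
          ring
        rw [e]; exact hj.mul_right _
      · simp only [P, if_true, taylor_mul, taylor_pow, taylor_X,
          map_mul, map_pow, ev_C, ev_yt, eval_X, eval_C, hqdef, add_C_pow_card]
        have e : C (f.eval x) ^ l * ((X ^ q + C x) ^ (j : ℕ) * (X + C x) ^ (d : ℕ) * taylor x f ^ n) -
            C x ^ (j : ℕ) * (X + C x) ^ (d : ℕ) * (C a * ev x (HH f n l)) =
            ((X ^ q + C x) ^ (j : ℕ) - C x ^ (j : ℕ)) *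
              ((X + C x) ^ (d : ℕ) * C (f.eval x) ^ l * taylor x f ^ n) +
            (C (f.eval x) ^ l * taylor x f ^ n - C a * ev x (HH f n l)) *
              (C x ^ (j : ℕ) * (X + C x) ^ (d : ℕ)) := by
          ring
        rw [e]; exact dvd_add (hj.mul_right _) (hH.mul_right _)
    have h3 : X ^ l ∣ C (f.eval x) ^ l * taylor x R := by
      have := dvd_add h2 h1
      rwa [sub_add_cancel] at this
    have hu : IsUnit (C (f.eval x) ^ l : F[X]) := (isUnit_C.2 (Ne.isUnit hx0)).pow l
    have h4 : X ^ l ∣ taylor x R := (hu.dvd_mul_left).1 h3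
    exact X_sub_C_pow_dvd_iff.2 h4
  have hprod : ∏ x ∈ S, (X - C x) ^ l ∣ R := by
    refine Finset.prod_dvd_of_coprime (fun x _ y _ hxy => ?_) hvan
    exact (pairwise_coprime_X_sub_C (s := fun x : F => x) (fun _ _ h => h) hxy).pow
  have hdeg1 := natDegree_le_of_dvd hprod hR0
  rw [natDegree_prod_of_monic _ _ (fun x _ => (monic_X_sub_C x).pow l)] at hdeg1
  simp only [natDegree_pow, natDegree_X_sub_C, mul_one, Finset.sum_const, smul_eq_mul] at hdeg1
  have hJ0 : 0 < J := by
    rcases Nat.eq_zero_or_pos J with rfl | h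
    · simp at hJ
    · exact h
  have hdeg2 : R.natDegree ≤ D + n * f.natDegree + (J - 1) * q := by
    refine natDegree_sum_le_of_forall_le _ _ fun j hj => natDegree_mul_le.trans (add_le_add ?_ ?_)
    · refine natDegree_add_le_of_degree_le ((hpol false j).trans (by omega)) ?_
      exact natDegree_mul_le.trans (add_le_add (hpol true j) natDegree_pow_le)
    · rw [← pow_mul, natDegree_X_pow, mul_comm]
      have := Finset.mem_range.1 hj
      exact Nat.mul_le_mul_right _ (by omega)
  have e : J * q = (J - 1) * q + q := by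
    conv_lhs => rw [show J = (J - 1) + 1 by omega, add_mul, one_mul]
  rw [mul_comm] at hdeg1
  omega

end main

end Crest.Agent.R34
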