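import Crest.Agent.R34.Defs
import Crest.Agent.R34.WeilStepanov

/-!
# Row 34: the character sum estimate `WeilProdStmt`
-/

set_option autoImplicit false

namespace Crest.Agent.R34

open Polynomial Finset

section
variable {F : Type} [Field F] [Fintype F] [DecidableEq F]

lemma stepanov_bound {f : F[X]} (hf0 : f.eval 0 ≠ 0) {c : F} (hc : f.rootMultiplicity c = 1)
    (hdeg : f.natDegree ≤ 7) (hodd : Fintype.card F % 2 = 1) (hbig : 100 ≤ Fintype.card F)
    (a : F) (S : Finset F) (hS : ∀ x ∈ S, f.eval x ≠ 0 ∧ (f.eval x) ^ (Fintype.card F / 2) = a) :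
    (S.card : ℝ) ≤ (Fintype.card F : ℝ) / 2 + 28 * Real.sqrt (Fintype.card F) := by
  obtain ⟨D, hD⟩ : ∃ D, Fintype.card F = 2 * (D + 4) + 1 := ⟨Fintype.card F / 2 - 4, by omega⟩
  have hn : Fintype.card F / 2 = D + 4 := by omega
  rw [hn] at hS
  set q := Fintype.card F with hq
  set l := Nat.sqrt q with hl
  have hl1 : l * l ≤ q := Nat.sqrt_le q
  have hl2 : q < (l + 1) * (l + 1) := Nat.lt_succ_sqrt q
  have hl10 : 10 ≤ l := Nat.le_sqrt.2 (by omega)
  set J := l / 2 + 11 with hJ
  have hJ1 : l + 21 ≤ 2 * J := by omega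
  have hJ2 : 2 * J ≤ l + 22 := by omega
  have h10 : 10 * l ≤ q := by nlinarith
  have hmain := stepanov_count (n := D + 4) (D := D) (J := J) (l := l) hf0 hc hD (by omega)
    (by omega) (by
      have h1 : l * f.natDegree ≤ l * 7 := Nat.mul_le_mul_left _ hdeg
      have h2 : l * (D + J + l * f.natDegree + 1) ≤ l * (D + J + l * 7 + 1) :=
        Nat.mul_le_mul_left _ (by omega)
      have h3 : (l + 21) * (D + 1) ≤ 2 * J * (D + 1) := Nat.mul_le_mul_right _ hJ1
      have h4 : l * (2 * J) ≤ l * (l + 22) := Nat.mul_le_mul_left _ hJ2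
      nlinarith) a S hS
  rw [← hq] at hmain
  have h5 : (D + 4) * f.natDegree ≤ (D + 4) * 7 := Nat.mul_le_mul_left _ hdeg
  have h6 : 2 * J * q ≤ (l + 22) * q := Nat.mul_le_mul_right _ hJ2
  have h7 : 2 * (l * S.card) ≤ (l + 28) * q := by nlinarith
  have h8 : (2 : ℝ) * (l * S.card) ≤ (l + 28) * q := by exact_mod_cast h7
  have hl0 : (0 : ℝ) < l := by exact_mod_cast (by omega : 0 < l)
  have hl10' : (10 : ℝ) ≤ l := by exact_mod_cast hl10
  have hs : Real.sqrt q ≤ 2 * l := by
    rw [Real.sqrt_le_left (by positivity)]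
    have : (q : ℝ) < (l + 1) * (l + 1) := by exact_mod_cast hl2
    nlinarith
  have hs2 : Real.sqrt q * Real.sqrt q = q := Real.mul_self_sqrt (by positivity)
  have hs0 := Real.sqrt_nonneg (q : ℝ)
  refine le_of_mul_le_mul_left ?_ hl0
  nlinarith

lemma abs_quadChar_le (y : F) : |(quadraticChar F y : ℝ)| ≤ 1 := by
  rcases quadraticChar_isQuadratic F y with h | h | h <;> simp [h]

lemma charSum_bound_poly (hF : ringChar F ≠ 2) {f : F[X]} (hf0 : f.eval 0 ≠ 0) {c : F}
    (hc : f.rootMultiplicity c = 1) (hdeg : f.natDegree ≤ 7) (hbig : 100 ≤ Fintype.card F) :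
    |∑ z : F, (quadraticChar F (f.eval z) : ℝ)| ≤ 63 * Real.sqrt (Fintype.card F) := by
  have hodd := FiniteField.odd_card_of_char_ne_two hF
  have hf : f ≠ 0 := by rintro rfl; simp at hf0
  have h1 := stepanov_bound hf0 hc hdeg hodd hbig 1
    (univ.filter fun z => quadraticChar F (f.eval z) = 1) (fun x hx => by
      have hx' := (mem_filter.1 hx).2
      refine ⟨fun h => by simp [h] at hx', ?_⟩
      rw [← quadraticChar_eq_pow_of_char_ne_two' hF, hx']; simp)
  have h2 := stepanov_bound hf0 hc hdeg hodd hbig (-1)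
    (univ.filter fun z => quadraticChar F (f.eval z) = -1) (fun x hx => by
      have hx' := (mem_filter.1 hx).2
      refine ⟨fun h => by simp [h] at hx', ?_⟩
      rw [← quadraticChar_eq_pow_of_char_ne_two' hF, hx']; simp)
  have h3 : ((univ.filter fun z => f.eval z = 0).card : ℝ) ≤ 7 := by
    have : (univ.filter fun z => f.eval z = 0) ⊆ f.roots.toFinset := fun z hz => by
      simpa [hf] using (mem_filter.1 hz).2
    have := (card_le_card this).trans ((Multiset.toFinset_card_le _).trans
      ((card_roots' f).trans hdeg))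
    exact_mod_cast this
  have hs : (1 : ℝ) ≤ Real.sqrt (Fintype.card F) := by
    rw [Real.one_le_sqrt]; exact_mod_cast (by omega : 1 ≤ Fintype.card F)
  have u1 : ∑ z : F, (quadraticChar F (f.eval z) : ℝ) ≤ ∑ z : F,
      (2 * (if quadraticChar F (f.eval z) = 1 then (1 : ℝ) else 0) +
        (if f.eval z = 0 then (1 : ℝ) else 0) - 1) := by
    refine sum_le_sum fun z _ => ?_
    by_cases h : f.eval z = 0
    · simp [h]
    · rcases quadraticChar_dichotomy h with h' | h' <;> rw [h'] <;> simp [h] <;> norm_num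
  have u2 : ∑ z : F, (1 - 2 * (if quadraticChar F (f.eval z) = -1 then (1 : ℝ) else 0) -
        (if f.eval z = 0 then (1 : ℝ) else 0)) ≤ ∑ z : F, (quadraticChar F (f.eval z) : ℝ) := by
    refine sum_le_sum fun z _ => ?_
    by_cases h : f.eval z = 0
    · simp [h]
    · rcases quadraticChar_dichotomy h with h' | h' <;> rw [h'] <;> simp [h] <;> norm_num
  rw [sum_sub_distrib, sum_add_distrib, ← mul_sum, sum_boole, sum_boole] at u1
  rw [sum_sub_distrib, sum_sub_distrib, ← mul_sum, sum_boole, sum_boole] at u2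
  simp only [sum_const, card_univ, nsmul_eq_mul, mul_one] at u1 u2
  rw [abs_le]
  constructor <;> linarith

lemma charSum_bound (hF : ringChar F ≠ 2) {ι : Type} (s : Finset ι) (κ : ι → F)
    (hs : s.card ≤ 7) (hne : s.Nonempty) (hκ : Set.InjOn κ s) :
    |∑ z : F, ∏ i ∈ s, (quadraticChar F (z - κ i) : ℝ)| ≤ 63 * Real.sqrt (Fintype.card F) := by
  classical
  by_cases hbig : 100 ≤ Fintype.card F
  · obtain ⟨t, ht⟩ : ∃ t : F, t ∉ s.image κ := by
      by_contra h
      push Not at h
      have : (univ : Finset F) ⊆ s.image κ := fun t _ => h t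
      have := (card_le_card this).trans card_image_le
      rw [card_univ] at this
      omega
    set f : F[X] := ∏ i ∈ s, (X - C (κ i - t)) with hf
    have hev : ∀ z, f.eval z = ∏ i ∈ s, (z + t - κ i) := by
      intro z
      rw [hf, eval_prod]
      exact prod_congr rfl fun i _ => by simp; ring
    obtain ⟨i₀, hi₀⟩ := hne
    have h0 : f.eval 0 ≠ 0 := by
      rw [hev]
      refine prod_ne_zero_iff.2 fun i hi h => ht ?_
      exact mem_image.2 ⟨i, hi, by linear_combination -h⟩
    have hc : f.rootMultiplicity (κ i₀ - t) = 1 := by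
      have e : f = (∏ i ∈ s.erase i₀, (X - C (κ i - t))) * (X - C (κ i₀ - t)) ^ 1 := by
        rw [pow_one, hf, prod_erase_mul _ _ hi₀]
      have hne0 : eval (κ i₀ - t) (∏ i ∈ s.erase i₀, (X - C (κ i - t))) ≠ 0 := by
        rw [eval_prod]
        refine prod_ne_zero_iff.2 fun i hi h => (mem_erase.1 hi).1 ?_
        refine hκ (mem_erase.1 hi).2 hi₀ ?_
        simp only [eval_sub, eval_X, eval_C] at h
        linear_combination -h
      rw [e, rootMultiplicity_mul_X_sub_C_pow (by intro h; rw [h, eval_zero] at hne0; exact hne0 rfl),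
        rootMultiplicity_eq_zero hne0]
    have hdeg : f.natDegree ≤ 7 := by
      rw [hf, natDegree_prod_of_monic _ _ (fun i _ => monic_X_sub_C _)]
      simp only [natDegree_X_sub_C, sum_const, smul_eq_mul, mul_one]
      exact hs
    have := charSum_bound_poly hF h0 hc hdeg hbig
    rw [← Equiv.sum_comp (Equiv.addRight t)]
    simp only [hev, map_prod, Int.cast_prod] at this
    exact this
  · have h1 : |∑ z : F, ∏ i ∈ s, (quadraticChar F (z - κ i) : ℝ)| ≤ Fintype.card F := by
      refine (abs_sum_le_sum_abs _ _).trans ?_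
      have : ∀ z ∈ (univ : Finset F), |∏ i ∈ s, (quadraticChar F (z - κ i) : ℝ)| ≤ 1 := by
        intro z _
        rw [abs_prod]
        exact prod_le_one (fun _ _ => abs_nonneg _) (fun i _ => abs_quadChar_le _)
      simpa using sum_le_card_nsmul _ _ _ this
    have hs2 : Real.sqrt (Fintype.card F) * Real.sqrt (Fintype.card F) = Fintype.card F :=
      Real.mul_self_sqrt (by positivity)
    have hs0 := Real.sqrt_nonneg (Fintype.card F : ℝ)
    have hs1 : Real.sqrt (Fintype.card F) ≤ 10 := by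
      rw [Real.sqrt_le_left (by norm_num)]
      have : Fintype.card F ≤ 100 := by omega
      have : (Fintype.card F : ℝ) ≤ 100 := by exact_mod_cast this
      linarith
    nlinarith

end

lemma abs_prod_le_pow {ι : Type} (s : Finset ι) (g : ι → ℝ) {B : ℝ} (hB : 1 ≤ B)
    (hg : ∀ i, |g i| ≤ B) (hs : s.card ≤ 7) : |∏ i ∈ s, g i| ≤ B ^ 7 := by
  rw [abs_prod]
  refine (prod_le_prod (fun _ _ => abs_nonneg _) (fun i _ => hg i)).trans ?_
  rw [prod_const]
  exact pow_le_pow_right₀ hB hs

theorem weilProd : WeilProdStmt := by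
  refine ⟨7 * (2 ^ 7 + 3 ^ 7) + 2 ^ 7 * (2 ^ 7 * 63), by norm_num, ?_⟩
  intro F _ _ _ hF ι s κ φ hs hκ hφ
  classical
  set al : ι → ℝ := fun i => (φ i 1 + φ i (-1)) / 2 with hal
  set be : ι → ℝ := fun i => (φ i 1 - φ i (-1)) / 2 with hbe
  have hal2 : ∀ i, |al i| ≤ 2 := fun i => by
    have := hφ i 1; have := hφ i (-1)
    rw [abs_le]; simp only [hal]; constructor <;> linarith
  have hbe1 : ∀ i, |be i| ≤ 1 := fun i => by
    have := hφ i 1; have := hφ i (-1)
    rw [abs_le]; simp only [hbe]; constructor <;> linarith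
  have hsq : (1 : ℝ) ≤ Real.sqrt (Fintype.card F) := by
    rw [Real.one_le_sqrt]; exact_mod_cast Fintype.card_pos
  -- replace `φ` by an affine function
  have h1 : |∑ z : F, ∏ i ∈ s, φ i (quadraticChar F (z - κ i)) -
      ∑ z : F, ∏ i ∈ s, (be i * (quadraticChar F (z - κ i) : ℝ) + al i)| ≤ 7 * (2 ^ 7 + 3 ^ 7) := by
    rw [← sum_sub_distrib]
    refine (abs_sum_le_sum_abs _ _).trans ?_
    have : ∀ z ∈ (univ : Finset F), |∏ i ∈ s, φ i (quadraticChar F (z - κ i)) -
        ∏ i ∈ s, (be i * (quadraticChar F (z - κ i) : ℝ) + al i)| ≤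
        (2 ^ 7 + 3 ^ 7) * (if z ∈ s.image κ then (1 : ℝ) else 0) := by
      intro z _
      split_ifs with hz
      · rw [mul_one]
        refine (abs_sub _ _).trans (add_le_add ?_ ?_)
        · exact abs_prod_le_pow s _ (by norm_num)
            (fun i => by rw [abs_of_nonneg (hφ i _).1]; exact (hφ i _).2) hs
        · refine abs_prod_le_pow s _ (by norm_num) (fun i => (abs_add_le _ _).trans ?_) hs
          rw [abs_mul]
          have := mul_le_one₀ (hbe1 i) (abs_nonneg _) (abs_quadChar_le (z - κ i))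
          have := hal2 i
          linarith
      · rw [mul_zero, abs_nonpos_iff, sub_eq_zero]
        refine prod_congr rfl fun i hi => ?_
        have hne : z - κ i ≠ 0 := fun h => hz (mem_image.2 ⟨i, hi, (sub_eq_zero.1 h).symm⟩)
        rcases quadraticChar_dichotomy hne with h | h <;> rw [h] <;> simp only [hal, hbe] <;>
          push_cast <;> ring
    refine (sum_le_sum this).trans ?_
    rw [← mul_sum, sum_boole, filter_mem_eq_inter, univ_inter, mul_comm]
    have : ((s.image κ).card : ℝ) ≤ 7 := by exact_mod_cast card_image_le.trans hs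
    exact mul_le_mul_of_nonneg_right this (by norm_num)
  have h2 : ∑ z : F, ∏ i ∈ s, (be i * (quadraticChar F (z - κ i) : ℝ) + al i) -
      (Fintype.card F : ℝ) * ∏ i ∈ s, al i =
      ∑ t ∈ s.powerset.erase ∅, ((∏ i ∈ t, be i) * ∏ i ∈ s \ t, al i) *
        ∑ z : F, ∏ i ∈ t, (quadraticChar F (z - κ i) : ℝ) := by
    simp_rw [prod_add]
    rw [sum_comm, ← add_sum_erase _ _ (empty_mem_powerset s)]
    simp only [prod_empty, one_mul, sdiff_empty, sum_const, card_univ, nsmul_eq_mul,
      add_sub_cancel_left]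
    refine sum_congr rfl fun t _ => ?_
    rw [mul_sum]
    exact sum_congr rfl fun z _ => by rw [prod_mul_distrib]; ring
  have h3 : |∑ t ∈ s.powerset.erase ∅, ((∏ i ∈ t, be i) * ∏ i ∈ s \ t, al i) *
        ∑ z : F, ∏ i ∈ t, (quadraticChar F (z - κ i) : ℝ)| ≤
      2 ^ 7 * (2 ^ 7 * (63 * Real.sqrt (Fintype.card F))) := by
    refine (abs_sum_le_sum_abs _ _).trans ?_
    have : ∀ t ∈ s.powerset.erase ∅, |((∏ i ∈ t, be i) * ∏ i ∈ s \ t, al i) *
        ∑ z : F, ∏ i ∈ t, (quadraticChar F (z - κ i) : ℝ)| ≤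
        2 ^ 7 * (63 * Real.sqrt (Fintype.card F)) := by
      intro t ht
      have hts := mem_powerset.1 (mem_erase.1 ht).2
      have htc := (card_le_card hts).trans hs
      have e1 := abs_prod_le_pow t be le_rfl hbe1 htc
      have e2 := abs_prod_le_pow (s \ t) al (by norm_num) hal2
        ((card_le_card sdiff_subset).trans hs)
      have e3 := charSum_bound hF t κ htc (nonempty_iff_ne_empty.2 (mem_erase.1 ht).1)
        (hκ.mono (by exact_mod_cast hts))
      rw [abs_mul, abs_mul]
      refine mul_le_mul ?_ e3 (abs_nonneg _) (by norm_num)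
      rw [one_pow] at e1
      exact (mul_le_of_le_one_left (abs_nonneg _) e1).trans e2
    refine (sum_le_card_nsmul _ _ _ this).trans ?_
    rw [nsmul_eq_mul]
    refine mul_le_mul_of_nonneg_right ?_ (by positivity)
    have : (s.powerset.erase ∅).card ≤ 2 ^ 7 := by
      refine card_erase_le.trans ?_
      rw [card_powerset]
      exact Nat.pow_le_pow_right (by norm_num) hs
    exact_mod_cast this
  rw [← h2] at h3
  have h4 := abs_sub_le (∑ z : F, ∏ i ∈ s, φ i (quadraticChar F (z - κ i)))
    (∑ z : F, ∏ i ∈ s, (be i * (quadraticChar F (z - κ i) : ℝ) + al i))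
    ((Fintype.card F : ℝ) * ∏ i ∈ s, al i)
  nlinarith

end Crest.Agent.R34
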