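import Mathlib

/-!
# Row 34 (Ryser counterexample): definitions and statements of the intermediate results

Blueprint.  Work in the affine plane `F × F` over a finite field with `q` elements.  Parts of the
hypergraph are the `q+1` directions, edges are (kept) points, vertices are (essentially) lines.
Each slope `a` gets a random type in `Fin 4`; the type says which of the six lines
`y = a x + a^2 + off j` are *active*: one or two are *split* (only four gadget points are kept on
them, and they carry two labels), and possibly two are *merged* into one vertex.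
The intermediate statements below are proved in separate files:

* `WeilProdStmt`   (Stepanov's method)                        file `Weil.lean`
* `SumProdStmt`    (BSG path lemma, Ruzsa calculus, Glibichuk) file `SumProd.lean`
* `IncidenceStmt`  (from `SumProdStmt`)                        file `Incidence.lean`
* `MainLemmaStmt`  (from `IncidenceStmt`)                      file `MainLemma.lean`
* `ConfigStmt`     (abstract configuration gives hypergraph)   file `Config.lean`
* `RandomStmt`     (from `WeilProdStmt` and McDiarmid)         files `Random*.lean`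
-/

set_option autoImplicit false

namespace Crest.Agent.R34

open Finset

/-- points of the affine plane -/
abbrev Pt (F : Type) := F × F
/-- directions: a slope, or `none` for vertical -/
abbrev Dir (F : Type) := Option F
/-- affine lines: a direction and an intercept -/
abbrev Line (F : Type) := Option F × F
/-- projective points: an affine point or a direction -/
abbrev PP (F : Type) := (F × F) ⊕ Option F

section basic
variable {F : Type} [Field F]

/-- the intercept of the line of direction `d` through `p` -/
def proj : Dir F → Pt F → F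
  | some a, p => p.2 - a * p.1
  | none, p => p.1

@[simp] lemma proj_some (a : F) (p : Pt F) : proj (some a) p = p.2 - a * p.1 := rfl
@[simp] lemma proj_none (p : Pt F) : proj (none : Dir F) p = p.1 := rfl

/-- incidence of a point and a line -/
def On (p : Pt F) (l : Line F) : Prop := proj l.1 p = l.2

instance [DecidableEq F] (p : Pt F) (l : Line F) : Decidable (On p l) :=
  inferInstanceAs (Decidable (proj l.1 p = l.2))

/-- incidence of a projective point and a line -/
def POn : PP F → Line F → Prop
  | Sum.inl p, l => On p l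
  | Sum.inr d, l => l.1 = d

instance [DecidableEq F] (O : PP F) (l : Line F) : Decidable (POn O l) :=
  match O with
  | Sum.inl p => inferInstanceAs (Decidable (On p l))
  | Sum.inr d => inferInstanceAs (Decidable (l.1 = d))

/-- two points have a common direction -/
lemma exists_dir (p p' : Pt F) : ∃ d : Dir F, proj d p = proj d p' := by
  by_cases h : p.1 = p'.1
  · exact ⟨none, h⟩
  · refine ⟨some ((p.2 - p'.2) / (p.1 - p'.1)), ?_⟩
    have h' : p.1 - p'.1 ≠ 0 := sub_ne_zero.mpr h
    simp only [proj_some]
    field_simp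
    ring

/-- two projections in different directions determine the point -/
lemma eq_of_proj_eq {d d' : Dir F} (hd : d ≠ d') {p p' : Pt F}
    (h : proj d p = proj d p') (h' : proj d' p = proj d' p') : p = p' := by
  obtain ⟨x, y⟩ := p
  obtain ⟨x', y'⟩ := p'
  cases d with
  | none =>
    cases d' with
    | none => exact absurd rfl hd
    | some a =>
      simp only [proj_none, proj_some] at h h'
      subst h
      have : y = y' := by linear_combination h'
      rw [this]
  | some a =>
    cases d' with
    | none =>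
      simp only [proj_none, proj_some] at h h'
      subst h'
      have : y = y' := by linear_combination h
      rw [this]
    | some b =>
      simp only [proj_some] at h h'
      have hab : a - b ≠ 0 := sub_ne_zero.mpr (fun e => hd (by rw [e]))
      have hx : x = x' := by
        have : (a - b) * (x - x') = 0 := by linear_combination h' - h
        rcases mul_eq_zero.mp this with h1 | h1
        · exact absurd h1 hab
        · exact sub_eq_zero.mp h1
      subst hx
      have : y = y' := by linear_combination h
      rw [this]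

/-- two non-parallel lines meet -/
lemma exists_meet {d d' : Dir F} (hd : d ≠ d') (c c' : F) :
    ∃ p : Pt F, proj d p = c ∧ proj d' p = c' := by
  cases d with
  | none =>
    cases d' with
    | none => exact absurd rfl hd
    | some a => exact ⟨(c, c' + a * c), rfl, by simp⟩
  | some a =>
    cases d' with
    | none => exact ⟨(c', c + a * c'), by simp, rfl⟩
    | some b =>
      have hab : a - b ≠ 0 := sub_ne_zero.mpr (fun e => hd (by rw [e]))
      refine ⟨((c' - c) / (a - b), c + a * ((c' - c) / (a - b))), by simp, ?_⟩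
      simp only [proj_some]
      field_simp
      ring

/-- two distinct lines have at most one common point -/
lemma eq_of_on_on {l l' : Line F} (hl : l ≠ l') {p p' : Pt F}
    (h1 : On p l) (h2 : On p l') (h3 : On p' l) (h4 : On p' l') : p = p' := by
  by_cases hd : l.1 = l'.1
  · exfalso
    apply hl
    refine Prod.ext hd ?_
    unfold On at h1 h2
    rw [← h1, ← h2, hd]
  · exact eq_of_proj_eq hd (h1.trans h3.symm) (h2.trans h4.symm)

/-- two distinct points lie on at most one common line -/
lemma line_eq_of_on_on {l l' : Line F} {p p' : Pt F} (hp : p ≠ p')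
    (h1 : On p l) (h2 : On p l') (h3 : On p' l) (h4 : On p' l') : l = l' := by
  by_contra hl
  exact hp (eq_of_on_on hl h1 h2 h3 h4)

/-- two distinct lines have at most one common projective point -/
lemma pp_eq_of_pon {l l' : Line F} (hl : l ≠ l') {O O' : PP F}
    (h1 : POn O l) (h2 : POn O l') (h3 : POn O' l) (h4 : POn O' l') : O = O' := by
  have key : ∀ (p : Pt F) (d : Dir F), On p l → On p l' → l.1 = d → l'.1 = d → False := by
    intro p d a b c e
    apply hl
    refine Prod.ext (c.trans e.symm) ?_
    unfold On at a b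
    rw [← a, ← b, c, e]
  cases O with
  | inl p =>
    cases O' with
    | inl p' => exact congrArg Sum.inl (eq_of_on_on hl h1 h2 h3 h4)
    | inr d => exact (key p d h1 h2 h3 h4).elim
  | inr d =>
    cases O' with
    | inl p' => exact (key p' d h3 h4 h1 h2).elim
    | inr d' => exact congrArg Sum.inr ((show l.1 = d from h1).symm.trans h3)

/-- any two lines have a common projective point -/
lemma exists_pon (l l' : Line F) : ∃ O : PP F, POn O l ∧ POn O l' := by
  by_cases hd : l.1 = l'.1
  · exact ⟨Sum.inr l.1, rfl, hd.symm⟩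
  · obtain ⟨p, h1, h2⟩ := exists_meet hd l.2 l'.2
    exact ⟨Sum.inl p, h1, h2⟩

/-- every line has `q` points -/
lemma card_on_line [Fintype F] [DecidableEq F] (l : Line F) :
    (univ.filter (fun p : Pt F => On p l)).card = Fintype.card F := by
  obtain ⟨d, c⟩ := l
  cases d with
  | none =>
    rw [← card_univ]
    symm
    refine card_bij (fun y _ => (c, y)) ?_ ?_ ?_
    · intro y _; simp [On]
    · intro y _ y' _ h; exact (Prod.ext_iff.mp h).2
    · intro p hp
      simp only [On, proj_none, mem_filter, mem_univ, true_and] at hp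
      exact ⟨p.2, mem_univ _, Prod.ext hp.symm rfl⟩
  | some a =>
    rw [← card_univ]
    symm
    refine card_bij (fun x _ => (x, c + a * x)) ?_ ?_ ?_
    · intro y _; simp [On]
    · intro y _ y' _ h; exact (Prod.ext_iff.mp h).1
    · intro p hp
      simp only [On, proj_some, mem_filter, mem_univ, true_and] at hp
      refine ⟨p.1, mem_univ _, Prod.ext rfl ?_⟩
      simp only
      rw [← hp]; ring

end basic

/-! ## The character sum estimate (Stepanov) -/

/-- Joint equidistribution of at most seven shifted quadratic characters. -/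
def WeilProdStmt : Prop :=
  ∃ C : ℝ, 0 ≤ C ∧ ∀ (F : Type) [Field F] [Fintype F] [DecidableEq F], ringChar F ≠ 2 →
    ∀ (ι : Type) (s : Finset ι) (κ : ι → F) (φ : ι → ℤ → ℝ),
      s.card ≤ 7 → Set.InjOn κ s → (∀ i t, 0 ≤ φ i t ∧ φ i t ≤ 2) →
      |∑ z : F, ∏ i ∈ s, φ i (quadraticChar F (z - κ i))
        - (Fintype.card F : ℝ) * ∏ i ∈ s, (φ i 1 + φ i (-1)) / 2|
        ≤ C * Real.sqrt (Fintype.card F)

/-! ## The sum-product input and the incidence bound -/

/-- Many dilates with a dense small partial sumset are impossible (no subfield of order `√q`). -/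
def SumProdStmt : Prop :=
  ∀ (F : Type) [Field F] [Fintype F] [DecidableEq F], ¬ IsSquare (Fintype.card F) →
    ∀ (A B Ξ : Finset F) (N K : ℝ) (G : F → Finset (F × F)),
      10000 ≤ K → (A.card : ℝ) ≤ N → (B.card : ℝ) ≤ N → (0 : F) ∉ Ξ →
      (∀ ξ ∈ Ξ, G ξ ⊆ A ×ˢ B) →
      (∀ ξ ∈ Ξ, N ^ 2 / K ≤ ((G ξ).card : ℝ)) →
      (∀ ξ ∈ Ξ, (((G ξ).image (fun x => x.1 + ξ * x.2)).card : ℝ) ≤ N) →
      (Fintype.card F : ℝ) * K ^ 30 ≤ (Ξ.card : ℝ) ^ 3 →
      N ≤ K ^ 3000 ∨ (Fintype.card F : ℝ) ≤ K ^ 3000 * N ∨ (Ξ.card : ℝ) ^ 2 ≤ K ^ 3000 * N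

/-- number of lines of `𝓛` through `p` -/
def mult {F : Type} [Field F] [DecidableEq F] (𝓛 : Finset (Line F)) (p : Pt F) : ℕ :=
  (𝓛.filter (fun l => On p l)).card

/-- No approximate Baer subplane: among at most `q` lines, the points of multiplicity about `√q`
carry few pairs of lines. -/
def IncidenceStmt : Prop :=
  ∀ (F : Type) [Field F] [Fintype F] [DecidableEq F], ¬ IsSquare (Fintype.card F) →
    ∀ (K : ℝ), 10000 ≤ K → K ^ 1000000 ≤ (Fintype.card F : ℝ) →
      ∀ (𝓛 : Finset (Line F)) (M : Finset (Pt F)), 𝓛.card ≤ Fintype.card F →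
        (∀ p ∈ M, Real.sqrt (Fintype.card F) / K ≤ (mult 𝓛 p : ℝ) ∧
          (mult 𝓛 p : ℝ) ≤ K * Real.sqrt (Fintype.card F)) →
        ∑ p ∈ M, (mult 𝓛 p : ℝ) ^ 2 ≤ (Fintype.card F : ℝ) ^ 2 / K

/-! ## The main lemma: covers of a pseudorandom set by `q` lines are near-pencils -/

section cert
variable {F : Type} [Field F]

/-- `p` is the intersection point of `a i` and `b j`, off the line `x = 0`, not one of the listed
points `H t`, and in general position with respect to the family `𝓕`. -/
def GoodPair (𝓕 : Finset (Line F)) {D h : ℕ} (a b : Fin D → Line F) (H : Fin h → Pt F)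
    (i j : Fin D) (p : Pt F) : Prop :=
  a i ≠ b j ∧ On p (a i) ∧ On p (b j) ∧ p.1 ≠ 0 ∧ (∀ t, H t ≠ p) ∧
    ∀ m ∈ 𝓕, On p m → (∀ k, a k ≠ m) → (∀ k, b k ≠ m) →
      ∀ (k l : Fin D) (p' : Pt F), a k ≠ b l → On p' (a k) → On p' (b l) → On p' m → k = i ∧ l = j

open Classical in
/-- the set of good triples `(i, j, p)` -/
noncomputable def goodSet [Fintype F] (𝓕 : Finset (Line F)) {D h : ℕ} (a b : Fin D → Line F)
    (H : Fin h → Pt F) : Finset (Fin D × Fin D × Pt F) :=
  univ.filter (fun x => GoodPair 𝓕 a b H x.1 x.2.1 x.2.2)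

/-- the certificate property of the set `R` -/
def Cert [Fintype F] [DecidableEq F] (R : Finset (Pt F)) (𝓕 : Finset (Line F))
    (Allowed : Line F → Prop) (D h : ℕ) (c₀ ρ₁ : ℝ) : Prop :=
  ∀ (a b : Fin D → Line F) (H : Fin h → Pt F), (∀ i, Allowed (a i)) → (∀ j, Allowed (b j)) →
    c₀ * (D : ℝ) ^ 2 ≤ ((goodSet 𝓕 a b H).card : ℝ) →
    ρ₁ * ((goodSet 𝓕 a b H).card : ℝ) ≤ (((goodSet 𝓕 a b H).filter (fun x => x.2.2 ∈ R)).card : ℝ)

end cert

/-- Any at most `q` allowed lines covering `R` form a near-pencil. -/
def MainLemmaStmt : Prop :=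
  ∀ (η ρ₁ : ℝ), 0 < η → 0 < ρ₁ → ∃ (c₀ : ℝ) (h D₀ : ℕ), 0 < c₀ ∧
    ∀ (F : Type) [Field F] [Fintype F] [DecidableEq F], ¬ IsSquare (Fintype.card F) →
      ∀ D : ℕ, D₀ ≤ D → D ^ 10000000 ≤ Fintype.card F →
        ∀ (R : Finset (Pt F)) (𝓕 : Finset (Line F)) (Allowed : Line F → Prop) (lam : ℝ),
          (∀ p : Pt F, mult 𝓕 p ≤ 12) → ¬ Allowed (none, 0) →
          (Fintype.card F : ℝ) / 128 ≤ lam →
          (∀ l, Allowed l → ((R.filter (fun p => On p l)).card : ℝ)
              ≤ lam + D * Real.sqrt (Fintype.card F)) →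
          (Fintype.card F : ℝ) * lam - 2 * D * Fintype.card F * Real.sqrt (Fintype.card F)
              ≤ (R.card : ℝ) →
          Cert R 𝓕 Allowed D h c₀ ρ₁ →
          ∀ 𝓒 : Finset (Line F), (∀ l ∈ 𝓒, Allowed l) → 𝓒.card ≤ Fintype.card F →
            (∀ p ∈ R, ∃ l ∈ 𝓒, On p l) →
            ∃ O : PP F, (1 - η) * (Fintype.card F : ℝ) ≤ ((𝓒.filter (fun l => POn O l)).card : ℝ)

/-! ## Abstract configurations -/

/-- Data of a configuration: split lines, merged pairs, special points and their classes. -/
structure Config (F : Type) where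
  /-- intercepts of the split lines of each direction -/
  split : Dir F → Finset F
  /-- whether the direction has a merged pair -/
  isM : Dir F → Bool
  /-- first line of the merged pair -/
  lo : Dir F → F
  /-- second line of the merged pair -/
  hi : Dir F → F
  /-- special points -/
  Z : Finset (Pt F)
  /-- class of a special point -/
  cls : Pt F → Bool

namespace Config
variable {F : Type} [Field F] [DecidableEq F] (Γ : Config F)

/-- split or merged lines -/
def IsG (l : Line F) : Prop :=
  l.2 ∈ Γ.split l.1 ∨ (Γ.isM l.1 = true ∧ (l.2 = Γ.lo l.1 ∨ l.2 = Γ.hi l.1))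

/-- the label of the point `p` in part `d` -/
def lab (d : Dir F) (p : Pt F) : F ⊕ F :=
  if proj d p ∈ Γ.split d ∧ Γ.cls p = true then Sum.inr (proj d p)
  else if Γ.isM d = true ∧ proj d p = Γ.hi d then Sum.inl (Γ.lo d)
  else Sum.inl (proj d p)

/-- `p` and `p'` lie on the two different lines of the merged pair of direction `b` -/
def Partner (b : Dir F) (p p' : Pt F) : Prop :=
  Γ.isM b = true ∧
    ((proj b p = Γ.lo b ∧ proj b p' = Γ.hi b) ∨ (proj b p = Γ.hi b ∧ proj b p' = Γ.lo b))

/-- The properties of a good configuration (`r` is a richness parameter). -/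
structure Good [Fintype F] (r : ℕ) : Prop where
  card_split : ∀ d, (Γ.split d).card = if Γ.isM d = true then 2 else 1
  lo_ne_hi : ∀ d, Γ.isM d = true → Γ.lo d ≠ Γ.hi d
  lo_not_split : ∀ d, Γ.isM d = true → Γ.lo d ∉ Γ.split d
  hi_not_split : ∀ d, Γ.isM d = true → Γ.hi d ∉ Γ.split d
  /-- a special point lies on at most one split line -/
  priv : ∀ z ∈ Γ.Z, ∀ d d', proj d z ∈ Γ.split d → proj d' z ∈ Γ.split d' → d = d'
  /-- each split line carries two special points of each class -/
  card_cls : ∀ d, ∀ c ∈ Γ.split d, ∀ t : Bool,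
    (Γ.Z.filter (fun z => proj d z = c ∧ Γ.cls z = t)).card = 2
  /-- special points of different classes on a split line are partners -/
  cross : ∀ z ∈ Γ.Z, ∀ z' ∈ Γ.Z, ∀ d, proj d z ∈ Γ.split d → proj d z' = proj d z →
    Γ.cls z ≠ Γ.cls z' → ∃ b, Γ.Partner b z z'
  /-- a partner, on its split line, of a special point is special of the other class -/
  clean : ∀ z ∈ Γ.Z, ∀ d, proj d z ∈ Γ.split d → ∀ p, proj d p = proj d z →
    ∀ b, Γ.Partner b z p → p ∈ Γ.Z ∧ Γ.cls p ≠ Γ.cls z
  /-- a vertex contains at most two of the special points on split lines of a direction -/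
  cover_dir : ∀ d b v,
    (Γ.Z.filter (fun z => proj d z ∈ Γ.split d ∧ Γ.lab b z = v)).card ≤ 2
  /-- a vertex contains at most four of the special points on split lines through a point -/
  cover_pt : ∀ (O : Pt F) b v,
    (Γ.Z.filter (fun z => (∃ d, proj d z ∈ Γ.split d ∧ proj d z = proj d O) ∧
      Γ.lab b z = v)).card ≤ 4
  /-- every non-split line has many points on no other split or merged line -/
  rich : ∀ l : Line F, l.2 ∉ Γ.split l.1 → ∃ T : Finset (Pt F), r + 2 ≤ T.card ∧
    ∀ p ∈ T, On p l ∧ ∀ d, d ≠ l.1 → ¬ Γ.IsG (d, proj d p)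
  /-- covers of the free points by at most `q` ordinary lines are near-pencils -/
  pencil : ∀ 𝓒 : Finset (Line F), (∀ l ∈ 𝓒, ¬ Γ.IsG l) → 𝓒.card ≤ Fintype.card F →
    (∀ p : Pt F, (∀ d, ¬ Γ.IsG (d, proj d p)) → ∃ l ∈ 𝓒, On p l) →
    ∃ O : PP F, Fintype.card F ≤ (𝓒.filter (fun l => POn O l)).card + r

end Config

/-- The conclusion of S0045 for `q` (it implies the one of S0046). -/
def Ryser (q : ℕ) : Prop :=
  ∃ (N : ℕ) (part : Fin N → Fin (q + 1)) (E : Finset (Finset (Fin N))),
    E.Nonempty ∧
    (∀ e ∈ E, ∀ i : Fin (q + 1), (e.filter (fun v => part v = i)).card = 1) ∧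
    (∀ e ∈ E, ∀ f ∈ E, (e ∩ f).Nonempty) ∧
    (∀ i : Fin (q + 1), (Finset.univ.filter (fun v => part v = i)).card = q + 1) ∧
    (∀ v : Fin N, ∃ e ∈ E, v ∈ e) ∧
    (∀ S : Finset (Fin N), (∀ e ∈ E, (e ∩ S).Nonempty) → q + 1 ≤ S.card)

/-- A good configuration gives the hypergraph. -/
def ConfigStmt : Prop :=
  ∀ (F : Type) [Field F] [Fintype F] [DecidableEq F] (Γ : Config F) (r : ℕ),
    Γ.Good r → Ryser (Fintype.card F)

end Crest.Agent.R34
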