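import Mathlib

/-!
# Row 34: the path lemma behind the Balog-Szemeredi-Gowers theorem
-/

set_option autoImplicit false

namespace Crest.Agent.R34

open Finset

lemma sp_sum_le_filter {ι : Type*} (S : Finset ι) (f : ι → ℝ) {τ n : ℝ} (hτ : 0 ≤ τ)
    (hn : (S.card : ℝ) ≤ n) [DecidablePred fun x => τ ≤ f x] :
    ∑ x ∈ S, f x ≤ ∑ x ∈ S.filter (fun x => τ ≤ f x), f x + n * τ := by
  rw [← sum_filter_add_sum_filter_not S (fun x => τ ≤ f x)]
  have h1 : ∑ x ∈ S.filter (fun x => ¬ τ ≤ f x), f x ≤ (S.filter (fun x => ¬ τ ≤ f x)).card • τ :=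
    sum_le_card_nsmul _ _ _ fun x hx => (not_le.mp (mem_filter.mp hx).2).le
  have h2 : ((S.filter (fun x => ¬ τ ≤ f x)).card : ℝ) ≤ n :=
    le_trans (by exact_mod_cast card_filter_le _ _) hn
  rw [nsmul_eq_mul] at h1
  nlinarith

lemma sp_popular {ι : Type*} (S : Finset ι) (f : ι → ℝ) {τ n M : ℝ} (hτ : 0 ≤ τ)
    (hn : (S.card : ℝ) ≤ n) (hM : ∀ x ∈ S, f x ≤ M) [DecidablePred fun x => τ ≤ f x] :
    ∑ x ∈ S, f x ≤ (S.filter (fun x => τ ≤ f x)).card * M + n * τ := by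
  refine (sp_sum_le_filter S f hτ hn).trans ?_
  have h1 : ∑ x ∈ S.filter (fun x => τ ≤ f x), f x ≤ (S.filter (fun x => τ ≤ f x)).card • M :=
    sum_le_card_nsmul _ _ _ fun x hx => hM x (mem_filter.mp hx).1
  rw [nsmul_eq_mul] at h1
  linarith

lemma sp_double_count {α β : Type*} (A : Finset α) (B : Finset β) (r : α → β → Prop)
    [∀ a b, Decidable (r a b)] :
    ∑ a ∈ A, ((B.filter (fun b => r a b)).card : ℝ) =
      ∑ b ∈ B, ((A.filter (fun a => r a b)).card : ℝ) := by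
  simp only [card_filter, Nat.cast_sum, Nat.cast_ite, Nat.cast_one, Nat.cast_zero]
  exact sum_comm

lemma sp_card_filter_prod {α β : Type*} (A : Finset α) (B : Finset β) (r : α → β → Prop)
    [∀ a b, Decidable (r a b)] :
    (((A ×ˢ B).filter (fun x => r x.1 x.2)).card : ℝ) =
      ∑ a ∈ A, ((B.filter (fun b => r a b)).card : ℝ) := by
  simp only [card_filter, Nat.cast_sum, Nat.cast_ite, Nat.cast_one, Nat.cast_zero]
  exact sum_product' A B (fun a b => if r a b then (1 : ℝ) else 0)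

lemma sp_exists_ge {ι : Type*} (S : Finset ι) (f : ι → ℝ) {c n : ℝ} (hc : 0 < c) (hn0 : 0 < n)
    (hn : (S.card : ℝ) ≤ n) (h : n * c ≤ ∑ x ∈ S, f x) : ∃ x ∈ S, c ≤ f x := by
  by_contra hcon
  push Not at hcon
  rcases S.eq_empty_or_nonempty with rfl | hS
  · simp at h; nlinarith
  · have h1 : ∑ x ∈ S, f x < ∑ _x ∈ S, c := sum_lt_sum_of_nonempty hS hcon
    rw [sum_const, nsmul_eq_mul] at h1
    nlinarith

/-- The path lemma: large subsets joined by many paths of length three. -/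
theorem sp_paths {α β : Type*} [DecidableEq α] [DecidableEq β] (A : Finset α) (B : Finset β)
    (G : Finset (α × β)) {N K : ℝ} (hN : 0 < N) (hK : 0 < K) (hA : (A.card : ℝ) ≤ N)
    (hB : (B.card : ℝ) ≤ N) (hG : G ⊆ A ×ˢ B) (hGc : N ^ 2 / K ≤ (G.card : ℝ)) :
    ∃ A' ⊆ A, ∃ B' ⊆ B, N / (6 * K) ≤ (A'.card : ℝ) ∧ N / (4 * K) ≤ (B'.card : ℝ) ∧
      ∀ a ∈ A', ∀ b ∈ B', N ^ 2 / (3072 * K ^ 5) ≤
        (((A ×ˢ B).filter (fun x => (a, x.2) ∈ G ∧ (x.1, x.2) ∈ G ∧ (x.1, b) ∈ G)).card : ℝ) := by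
  classical
  set deg : α → ℝ := fun a => ((B.filter (fun b => (a, b) ∈ G)).card : ℝ) with hdeg
  have hGsum : (G.card : ℝ) = ∑ a ∈ A, deg a := by
    rw [← sp_card_filter_prod A B (fun a b => (a, b) ∈ G)]
    congr 2
    ext x
    simp only [mem_filter, Prod.mk.eta]
    exact ⟨fun h => ⟨hG h, h⟩, fun h => h.2⟩
  set A₁ := A.filter (fun a => N / (2 * K) ≤ deg a) with hA₁
  have hA₁c : (A₁.card : ℝ) ≤ N := le_trans (by exact_mod_cast card_filter_le _ _) hA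
  have h1 : N ^ 2 / (2 * K) ≤ ∑ a ∈ A₁, deg a := by
    have := sp_sum_le_filter A deg (τ := N / (2 * K)) (by positivity) hA
    have e : N ^ 2 / K = N ^ 2 / (2 * K) + N * (N / (2 * K)) := by field_simp; ring
    linarith
  set nb : β → Finset α := fun b => A₁.filter (fun a => (a, b) ∈ G) with hnb
  have h2 : ∑ a ∈ A₁, deg a = ∑ b ∈ B, ((nb b).card : ℝ) := sp_double_count A₁ B _
  have h3 : N ^ 3 / (4 * K ^ 2) ≤ ∑ b ∈ B, ((nb b).card : ℝ) ^ 2 := by
    have a1 := sq_sum_le_card_mul_sum_sq (s := B) (f := fun b => ((nb b).card : ℝ))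
    have a2 : (N ^ 2 / (2 * K)) ^ 2 ≤ (∑ b ∈ B, ((nb b).card : ℝ)) ^ 2 :=
      pow_le_pow_left₀ (by positivity) (h2 ▸ h1) 2
    have a3 : 0 ≤ ∑ b ∈ B, ((nb b).card : ℝ) ^ 2 := sum_nonneg fun _ _ => sq_nonneg _
    have a4 : N * (N ^ 3 / (4 * K ^ 2)) ≤ N * ∑ b ∈ B, ((nb b).card : ℝ) ^ 2 := by
      have e : N * (N ^ 3 / (4 * K ^ 2)) = (N ^ 2 / (2 * K)) ^ 2 := by field_simp; ring
      rw [e]
      exact a2.trans (a1.trans (mul_le_mul_of_nonneg_right hB a3))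
    exact le_of_mul_le_mul_left a4 hN
  set cod : α → α → ℝ :=
    fun a a' => ((B.filter (fun b => (a, b) ∈ G ∧ (a', b) ∈ G)).card : ℝ) with hcod
  set θ : ℝ := N / (128 * K ^ 3) with hθ
  have hθ0 : 0 < θ := by positivity
  set poor : β → ℝ :=
    fun b => (((nb b ×ˢ nb b).filter (fun x => cod x.1 x.2 < θ)).card : ℝ) with hpoor
  have h4 : ∑ b ∈ B, poor b ≤ N ^ 2 * θ := by
    have e1 : ∀ b, poor b = ((((A₁ ×ˢ A₁).filter (fun x => cod x.1 x.2 < θ)).filter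
        (fun x => (x.1, b) ∈ G ∧ (x.2, b) ∈ G)).card : ℝ) := by
      intro b
      simp only [hpoor]
      congr 2
      ext x
      simp only [hnb, mem_filter, mem_product]
      tauto
    simp only [e1]
    rw [← sp_double_count _ B (fun (x : α × α) b => (x.1, b) ∈ G ∧ (x.2, b) ∈ G)]
    have a1 : ∑ x ∈ (A₁ ×ˢ A₁).filter (fun x => cod x.1 x.2 < θ), cod x.1 x.2 ≤
        ((A₁ ×ˢ A₁).filter (fun x => cod x.1 x.2 < θ)).card • θ :=
      sum_le_card_nsmul _ _ _ fun x hx => (mem_filter.mp hx).2.le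
    have a2 : (((A₁ ×ˢ A₁).filter (fun x => cod x.1 x.2 < θ)).card : ℝ) ≤ N ^ 2 := by
      have : ((A₁ ×ˢ A₁).filter (fun x => cod x.1 x.2 < θ)).card ≤ A₁.card * A₁.card := by
        rw [← card_product]; exact card_filter_le _ _
      have h' : (((A₁ ×ˢ A₁).filter (fun x => cod x.1 x.2 < θ)).card : ℝ) ≤
          (A₁.card : ℝ) * A₁.card := by exact_mod_cast this
      nlinarith [Nat.cast_nonneg (α := ℝ) A₁.card]
    rw [nsmul_eq_mul] at a1
    exact a1.trans (mul_le_mul_of_nonneg_right a2 hθ0.le)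
  obtain ⟨b₀, -, hb₀⟩ := sp_exists_ge B (fun b => ((nb b).card : ℝ) ^ 2 - 16 * K * poor b)
    (c := N ^ 2 / (8 * K ^ 2)) (by positivity) hN hB (by
      rw [sum_sub_distrib, ← mul_sum]
      have a1 : 16 * K * ∑ b ∈ B, poor b ≤ 16 * K * (N ^ 2 * θ) :=
        mul_le_mul_of_nonneg_left h4 (by positivity)
      have e : N * (N ^ 2 / (8 * K ^ 2)) = N ^ 3 / (4 * K ^ 2) - 16 * K * (N ^ 2 * θ) := by
        rw [hθ]; field_simp; ring
      linarith)
  set A₂ := nb b₀ with hA₂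
  set m : ℝ := (A₂.card : ℝ) with hm
  have hm0 : 0 ≤ m := Nat.cast_nonneg _
  have hpoor0 : 0 ≤ poor b₀ := Nat.cast_nonneg _
  have hm1 : N / (3 * K) ≤ m := by
    have a1 : (N / (3 * K)) ^ 2 ≤ m ^ 2 := by
      have e : (N / (3 * K)) ^ 2 ≤ N ^ 2 / (8 * K ^ 2) := by
        rw [div_pow, mul_pow]
        exact div_le_div_of_nonneg_left (by positivity) (by positivity) (by nlinarith [sq_nonneg K])
      nlinarith
    exact le_of_sq_le_sq a1 hm0
  have hmpos : 0 < m := lt_of_lt_of_le (by positivity) hm1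
  have hm2 : 16 * K * poor b₀ ≤ m ^ 2 := by
    have : 0 ≤ N ^ 2 / (8 * K ^ 2) := by positivity
    linarith
  have hA₂A₁ : A₂ ⊆ A₁ := filter_subset _ _
  have hA₂A : A₂ ⊆ A := hA₂A₁.trans (filter_subset _ _)
  set pp : α → ℝ := fun a => ((A₂.filter (fun a' => cod a a' < θ)).card : ℝ) with hpp
  have h5 : poor b₀ = ∑ a ∈ A₂, pp a := sp_card_filter_prod A₂ A₂ (fun a a' => cod a a' < θ)
  set A' := A₂.filter (fun a => pp a ≤ m / (8 * K)) with hA'
  have h6 : m / 2 ≤ (A'.card : ℝ) := by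
    have a1 := card_filter_add_card_filter_not (s := A₂) (fun a => pp a ≤ m / (8 * K))
    have a1' : (A'.card : ℝ) + ((A₂.filter (fun a => ¬ pp a ≤ m / (8 * K))).card : ℝ) = m := by
      rw [hm, hA']
      exact_mod_cast a1
    have a2 : (A₂.filter (fun a => ¬ pp a ≤ m / (8 * K))).card • (m / (8 * K)) ≤
        ∑ a ∈ A₂.filter (fun a => ¬ pp a ≤ m / (8 * K)), pp a :=
      card_nsmul_le_sum _ _ _ fun x hx => (not_le.mp (mem_filter.mp hx).2).le
    have a3 : ∑ a ∈ A₂.filter (fun a => ¬ pp a ≤ m / (8 * K)), pp a ≤ ∑ a ∈ A₂, pp a :=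
      sum_le_sum_of_subset_of_nonneg (filter_subset _ _) fun _ _ _ => Nat.cast_nonneg _
    rw [nsmul_eq_mul] at a2
    set u : ℝ := ((A₂.filter (fun a => ¬ pp a ≤ m / (8 * K))).card : ℝ)
    have a4 : 16 * K * (u * (m / (8 * K))) ≤ m ^ 2 := by
      have := mul_le_mul_of_nonneg_left (a2.trans (a3.trans h5.ge)) (by positivity : 0 ≤ 16 * K)
      linarith
    have e : 16 * K * (u * (m / (8 * K))) = m * (2 * u) := by field_simp; ring
    rw [e, sq] at a4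
    have := le_of_mul_le_mul_left a4 hmpos
    linarith
  set dl : β → ℝ := fun b => ((A₂.filter (fun a => (a, b) ∈ G)).card : ℝ) with hdl
  set B' := B.filter (fun b => m / (4 * K) ≤ dl b) with hB'
  have h7 : N / (4 * K) ≤ (B'.card : ℝ) := by
    have a1 : ∑ a ∈ A₂, deg a = ∑ b ∈ B, dl b := sp_double_count A₂ B _
    have a2 : A₂.card • (N / (2 * K)) ≤ ∑ a ∈ A₂, deg a :=
      card_nsmul_le_sum _ _ _ fun x hx => (mem_filter.mp (hA₂A₁ hx)).2
    rw [nsmul_eq_mul] at a2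
    have a3 := sp_popular B dl (τ := m / (4 * K)) (M := m) (by positivity) hB
      (fun b _ => by simp only [hdl, hm]; exact_mod_cast card_filter_le _ _)
    have a4 : m * (N / (4 * K)) ≤ m * (B'.card : ℝ) := by
      have e : m * (N / (4 * K)) = m * (N / (2 * K)) - N * (m / (4 * K)) := by field_simp; ring
      linarith
    exact le_of_mul_le_mul_left a4 hmpos
  refine ⟨A', (filter_subset _ _).trans hA₂A, B', filter_subset _ _, ?_, h7, ?_⟩
  · have e : N / (6 * K) = N / (3 * K) / 2 := by field_simp; ring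
    linarith
  intro a ha b hb
  have ha' : pp a ≤ m / (8 * K) := (mem_filter.mp ha).2
  have hb' : m / (4 * K) ≤ dl b := (mem_filter.mp hb).2
  set T := A₂.filter (fun a' => (a', b) ∈ G ∧ θ ≤ cod a a') with hT
  have h8 : m / (8 * K) ≤ (T.card : ℝ) := by
    have a1 : A₂.filter (fun a' => (a', b) ∈ G) ⊆ T ∪ A₂.filter (fun a' => cod a a' < θ) := by
      intro x hx
      simp only [hT, mem_union, mem_filter] at hx ⊢
      by_cases h : θ ≤ cod a x
      · exact Or.inl ⟨hx.1, hx.2, h⟩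
      · exact Or.inr ⟨hx.1, not_le.mp h⟩
    have a2 := (card_le_card a1).trans (card_union_le _ _)
    have a3 : dl b ≤ (T.card : ℝ) + pp a := by simp only [hdl, hpp]; exact_mod_cast a2
    have e : m / (4 * K) = m / (8 * K) + m / (8 * K) := by field_simp; ring
    linarith
  rw [sp_card_filter_prod A B (fun a' b' => (a, b') ∈ G ∧ (a', b') ∈ G ∧ (a', b) ∈ G)]
  have h9 : T.card • θ ≤ ∑ a' ∈ T,
      ((B.filter (fun b' => (a, b') ∈ G ∧ (a', b') ∈ G ∧ (a', b) ∈ G)).card : ℝ) := by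
    refine card_nsmul_le_sum _ _ _ fun x hx => ?_
    obtain ⟨-, hx1, hx2⟩ := mem_filter.mp hx
    refine hx2.trans (le_of_eq ?_)
    simp only [hcod, hx1, and_true]
  rw [nsmul_eq_mul] at h9
  have h10 : ∑ a' ∈ T,
      ((B.filter (fun b' => (a, b') ∈ G ∧ (a', b') ∈ G ∧ (a', b) ∈ G)).card : ℝ) ≤ ∑ a' ∈ A,
      ((B.filter (fun b' => (a, b') ∈ G ∧ (a', b') ∈ G ∧ (a', b) ∈ G)).card : ℝ) :=
    sum_le_sum_of_subset_of_nonneg ((filter_subset _ _).trans hA₂A) fun _ _ _ => Nat.cast_nonneg _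
  refine le_trans ?_ (h9.trans h10)
  have h11 : N / (3 * K) / (8 * K) ≤ (T.card : ℝ) :=
    le_trans (div_le_div_of_nonneg_right hm1 (by positivity)) h8
  have e : N ^ 2 / (3072 * K ^ 5) = N / (3 * K) / (8 * K) * θ := by rw [hθ]; field_simp; ring
  rw [e]
  exact mul_le_mul_of_nonneg_right h11 hθ0.le

open scoped Pointwise in
/-- Balog-Szemeredi-Gowers for a partial sumset `a + ξ b`. -/
theorem sp_bsg {F : Type*} [Field F] [DecidableEq F] (A B : Finset F) (G : Finset (F × F))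
    {ξ : F} (hξ : ξ ≠ 0) {N K : ℝ} (hN : 0 < N) (hK : 0 < K) (hA : (A.card : ℝ) ≤ N)
    (hB : (B.card : ℝ) ≤ N) (hG : G ⊆ A ×ˢ B) (hGc : N ^ 2 / K ≤ (G.card : ℝ))
    (hS : ((G.image (fun x => x.1 + ξ * x.2)).card : ℝ) ≤ N) :
    ∃ A' ⊆ A, ∃ B' ⊆ B, N / (6 * K) ≤ (A'.card : ℝ) ∧ N / (4 * K) ≤ (B'.card : ℝ) ∧
      ((A' + ξ • B').card : ℝ) ≤ 3072 * K ^ 5 * N := by
  classical
  obtain ⟨A', hA', B', hB', h1, h2, h3⟩ := sp_paths A B G hN hK hA hB hG hGc
  refine ⟨A', hA', B', hB', h1, h2, ?_⟩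
  set S := G.image (fun x => x.1 + ξ * x.2) with hSdef
  have hrep : ∀ s : F, ∃ p : F × F, s ∈ A' + ξ • B' → p.1 ∈ A' ∧ p.2 ∈ B' ∧ s = p.1 + ξ * p.2 := by
    intro s
    by_cases hs : s ∈ A' + ξ • B'
    · obtain ⟨a, ha, c, hc, rfl⟩ := mem_add.mp hs
      obtain ⟨b, hb, rfl⟩ := mem_smul_finset.mp hc
      exact ⟨(a, b), fun _ => ⟨ha, hb, rfl⟩⟩
    · exact ⟨(0, 0), fun h => absurd h hs⟩
  choose p hp using hrep
  set D := ((A' + ξ • B') ×ˢ (A ×ˢ B)).filter (fun y => ((p y.1).1, y.2.2) ∈ G ∧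
    (y.2.1, y.2.2) ∈ G ∧ (y.2.1, (p y.1).2) ∈ G) with hD
  have hD1 : ((A' + ξ • B').card : ℝ) * (N ^ 2 / (3072 * K ^ 5)) ≤ D.card := by
    rw [hD, sp_card_filter_prod (A' + ξ • B') (A ×ˢ B) (fun s (x : F × F) => ((p s).1, x.2) ∈ G ∧
      (x.1, x.2) ∈ G ∧ (x.1, (p s).2) ∈ G), ← nsmul_eq_mul]
    exact card_nsmul_le_sum _ _ _ fun s hs => h3 _ (hp s hs).1 _ (hp s hs).2.1
  have hD2 : D.card ≤ (S ×ˢ S ×ˢ S).card := by
    refine card_le_card_of_injOn (fun y => ((p y.1).1 + ξ * y.2.2, y.2.1 + ξ * y.2.2,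
      y.2.1 + ξ * (p y.1).2)) ?_ ?_
    · intro y hy
      obtain ⟨-, c1, c2, c3⟩ := mem_filter.mp (mem_coe.mp hy)
      simp only [coe_product, Set.mem_prod, mem_coe, hSdef, mem_image]
      exact ⟨⟨_, c1, rfl⟩, ⟨_, c2, rfl⟩, ⟨_, c3, rfl⟩⟩
    · intro y hy y' hy' h
      have hy1 := (mem_product.mp (mem_filter.mp (mem_coe.mp hy)).1).1
      have hy1' := (mem_product.mp (mem_filter.mp (mem_coe.mp hy')).1).1
      simp only [Prod.mk.injEq] at h
      obtain ⟨e1, e2, e3⟩ := h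
      have e4 : y.1 = y'.1 := by
        have a1 := (hp _ hy1).2.2
        have a2 := (hp _ hy1').2.2
        linear_combination a1 - a2 + e1 - e2 + e3
      rw [e4] at e1 e3
      have e5 : y.2.2 = y'.2.2 := mul_left_cancel₀ hξ (add_left_cancel e1)
      have e6 : y.2.1 = y'.2.1 := add_right_cancel e3
      exact Prod.ext e4 (Prod.ext e6 e5)
  have hD3 : (D.card : ℝ) ≤ N ^ 3 := by
    have a1 : (D.card : ℝ) ≤ (S.card : ℝ) ^ 3 := by
      rw [card_product, card_product] at hD2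
      have : (D.card : ℝ) ≤ (S.card : ℝ) * ((S.card : ℝ) * S.card) := by exact_mod_cast hD2
      linarith
    exact a1.trans (pow_le_pow_left₀ (Nat.cast_nonneg _) hS 3)
  have hpos : 0 < N ^ 2 / (3072 * K ^ 5) := by positivity
  have e : N ^ 3 = 3072 * K ^ 5 * N * (N ^ 2 / (3072 * K ^ 5)) := by field_simp
  exact le_of_mul_le_mul_right (hD1.trans (hD3.trans e.le)) hpos

end Crest.Agent.R34
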