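import Mathlib

/-!
# Row 34: Ruzsa calculus for dilates and the growth step in a finite field
-/

set_option autoImplicit false

namespace Crest.Agent.R34

open Finset
open scoped Pointwise

section Small

variable {F : Type*} [Field F] [DecidableEq F]

/-- The dilate `t X` is close to `X` in Ruzsa distance. -/
def SpSmall (X : Finset F) (P : ℝ) (t : F) (i : ℕ) : Prop :=
  ((X - t • X).card : ℝ) ≤ P ^ i * X.card

variable {X : Finset F} {P : ℝ}

lemma sp_card_smul {t : F} (ht : t ≠ 0) (Y : Finset F) : (t • Y).card = Y.card :=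
  card_image_of_injective _ (smul_right_injective F ht)

lemma sp_smul_sub (t : F) (Y Z : Finset F) : t • (Y - Z) = t • Y - t • Z := by
  ext x
  simp only [mem_smul_finset, mem_sub, smul_eq_mul]
  constructor
  · rintro ⟨_, ⟨y, hy, z, hz, rfl⟩, rfl⟩
    exact ⟨_, ⟨y, hy, rfl⟩, _, ⟨z, hz, rfl⟩, by ring⟩
  · rintro ⟨_, ⟨y, hy, rfl⟩, _, ⟨z, hz, rfl⟩, rfl⟩
    exact ⟨_, ⟨y, hy, z, hz, rfl⟩, by ring⟩

lemma sp_smul_add (t : F) (Y Z : Finset F) : t • (Y + Z) = t • Y + t • Z := by
  ext x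
  simp only [mem_smul_finset, mem_add, smul_eq_mul]
  constructor
  · rintro ⟨_, ⟨y, hy, z, hz, rfl⟩, rfl⟩
    exact ⟨_, ⟨y, hy, rfl⟩, _, ⟨z, hz, rfl⟩, by ring⟩
  · rintro ⟨_, ⟨y, hy, rfl⟩, _, ⟨z, hz, rfl⟩, rfl⟩
    exact ⟨_, ⟨y, hy, z, hz, rfl⟩, by ring⟩

lemma sp_card_sub_comm (Y Z : Finset F) : (Y - Z).card = (Z - Y).card := by
  rw [← card_neg, neg_sub]

lemma SpSmall.mono (hP : 1 ≤ P) {t : F} {i j : ℕ} (h : SpSmall X P t i) (hij : i ≤ j) :
    SpSmall X P t j :=
  le_trans h (mul_le_mul_of_nonneg_right (pow_le_pow_right₀ hP hij) (Nat.cast_nonneg _))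

lemma spSmall_zero (hP : 1 ≤ P) (i : ℕ) : SpSmall X P 0 i := by
  have h1 : X - (0 : F) • X ⊆ X := by
    intro x hx
    obtain ⟨y, hy, z, hz, rfl⟩ := mem_sub.mp hx
    obtain ⟨w, -, rfl⟩ := mem_smul_finset.mp hz
    simpa using hy
  have h2 : ((X - (0 : F) • X).card : ℝ) ≤ X.card := by exact_mod_cast card_le_card h1
  exact h2.trans (le_mul_of_one_le_left (Nat.cast_nonneg _) (one_le_pow₀ hP))

omit [Field F] [DecidableEq F] in
lemma sp_cancel (hX : X.Nonempty) {u v : ℝ} (h : u * X.card ≤ v * X.card * X.card) :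
    u ≤ v * X.card :=
  le_of_mul_le_mul_right h (by exact_mod_cast hX.card_pos)

lemma SpSmall.mul (hX : X.Nonempty) (hP : 1 ≤ P) {t s : F} {i j : ℕ} (ht : SpSmall X P t i)
    (hs : SpSmall X P s j) : SpSmall X P (t * s) (i + j) := by
  by_cases h0 : t = 0
  · rw [h0, zero_mul]; exact spSmall_zero hP _
  have h := ruzsa_triangle_inequality_sub_sub_sub X (t • X) ((t * s) • X)
  rw [sp_card_smul h0, mul_smul, ← sp_smul_sub, sp_card_smul h0, sp_card_sub_comm (s • X),
    ← mul_smul] at h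
  have h' : ((X - (t * s) • X).card : ℝ) * X.card ≤ (X - t • X).card * (X - s • X).card := by
    exact_mod_cast h
  refine sp_cancel hX (h'.trans ?_)
  calc ((X - t • X).card : ℝ) * (X - s • X).card ≤ (P ^ i * X.card) * (P ^ j * X.card) :=
        mul_le_mul ht hs (Nat.cast_nonneg _) (by positivity)
    _ = _ := by ring

lemma SpSmall.inv {t : F} {i : ℕ} (ht : SpSmall X P t i) : SpSmall X P t⁻¹ i := by
  by_cases h0 : t = 0
  · rw [h0, inv_zero]; rwa [h0] at ht
  unfold SpSmall at ht ⊢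
  rw [← sp_card_smul h0 (X - t⁻¹ • X), sp_smul_sub, ← mul_smul, mul_inv_cancel₀ h0, one_smul,
    sp_card_sub_comm]
  exact ht

lemma sp_nsmul (hX : X.Nonempty) (h1 : SpSmall X P 1 1) (n : ℕ) :
    ((n • X).card : ℝ) ≤ P ^ n * X.card := by
  have h := pluennecke_ruzsa_inequality_nsmul_sub hX X n
  have h' : ((n • X).card : ℝ) ≤ (((X - X).card : ℝ) / X.card) ^ n * X.card := by
    have := (NNRat.cast_le (K := ℝ)).mpr h
    simpa using this
  refine h'.trans (mul_le_mul_of_nonneg_right (pow_le_pow_left₀ (by positivity) ?_ n)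
    (Nat.cast_nonneg _))
  unfold SpSmall at h1
  rw [one_smul, pow_one] at h1
  rw [div_le_iff₀ (by exact_mod_cast hX.card_pos)]
  exact h1

lemma SpSmall.neg (hX : X.Nonempty) (hP : 1 ≤ P) (h1 : SpSmall X P 1 1) {t : F} {i : ℕ}
    (ht : SpSmall X P t i) : SpSmall X P (-t) (i + 2) := by
  have h2 : SpSmall X P (-1) 2 := by
    unfold SpSmall
    rw [neg_smul_finset, one_smul, sub_neg_eq_add, ← two_nsmul]
    exact sp_nsmul hX h1 2
  simpa using ht.mul hX hP h2

lemma SpSmall.add (hX : X.Nonempty) (hP : 1 ≤ P) (h1 : SpSmall X P 1 1) {t s : F} {i j : ℕ}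
    (ht : SpSmall X P t i) (hs : SpSmall X P s j) : SpSmall X P (t + s) (i + j + 3) := by
  have a1 : X - (t + s) • X ⊆ -(t • X) + (X - s • X) := by
    intro x hx
    obtain ⟨y, hy, z, hz, rfl⟩ := mem_sub.mp hx
    obtain ⟨w, hw, rfl⟩ := mem_smul_finset.mp hz
    refine mem_add.mpr ⟨-(t • w), neg_mem_neg (smul_mem_smul_finset hw), y - s • w,
      sub_mem_sub hy (smul_mem_smul_finset hw), ?_⟩
    simp only [smul_eq_mul]; ring
  have a2 := ruzsa_triangle_inequality_add_add_add (-(t • X)) X (X - s • X)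
  have a3 := ruzsa_triangle_inequality_add_add_add (X + X) X (-(s • X))
  have e1 : -(t • X) + X = X - t • X := by rw [add_comm, sub_eq_add_neg]
  have e2 : X + (X - s • X) = X + X + -(s • X) := by rw [sub_eq_add_neg, add_assoc]
  have e3 : X + X + X = 3 • X := by rw [succ_nsmul, two_nsmul]
  rw [e1, e2] at a2
  rw [e3, ← sub_eq_add_neg X] at a3
  have a4 := sp_nsmul hX h1 3
  have b1 : ((X - (t + s) • X).card : ℝ) ≤ (-(t • X) + (X - s • X)).card := by
    exact_mod_cast card_le_card a1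
  have b2 : ((-(t • X) + (X - s • X)).card : ℝ) * X.card ≤
      (X - t • X).card * (X + X + -(s • X)).card := by exact_mod_cast a2
  have b3 : ((X + X + -(s • X)).card : ℝ) * X.card ≤ (3 • X).card * (X - s • X).card := by
    exact_mod_cast a3
  have b4 : ((X + X + -(s • X)).card : ℝ) ≤ P ^ (3 + j) * X.card := by
    refine sp_cancel hX (b3.trans ?_)
    calc ((3 • X).card : ℝ) * (X - s • X).card ≤ (P ^ 3 * X.card) * (P ^ j * X.card) :=
          mul_le_mul a4 hs (Nat.cast_nonneg _) (by positivity)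
      _ = _ := by ring
  refine b1.trans (sp_cancel hX (b2.trans ?_))
  calc ((X - t • X).card : ℝ) * (X + X + -(s • X)).card ≤
        (P ^ i * X.card) * (P ^ (3 + j) * X.card) :=
        mul_le_mul ht b4 (Nat.cast_nonneg _) (by positivity)
    _ = _ := by ring

end Small

section Growth

variable {F : Type*} [Field F] [Fintype F] [DecidableEq F]

omit [DecidableEq F] in
lemma sp_subfield_cube (hq : ¬ IsSquare (Fintype.card F)) (L : Subfield F) (hL : L ≠ ⊤) :
    Nat.card L ^ 3 ≤ Fintype.card F := by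
  classical
  have h := Module.card_eq_pow_finrank (K := L) (V := F)
  have hpos : 0 < Module.finrank L F := Module.finrank_pos
  have h1 : Module.finrank L F ≠ 1 := by
    intro h1
    rw [h1, pow_one] at h
    apply hL
    have hb : Function.Bijective (Subtype.val : L → F) :=
      (Fintype.bijective_iff_injective_and_card _).mpr ⟨Subtype.val_injective, h.symm⟩
    rw [eq_top_iff]
    intro x _
    obtain ⟨y, rfl⟩ := hb.2 x
    exact y.2
  have h2 : Module.finrank L F ≠ 2 := by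
    intro h2
    rw [h2] at h
    exact hq ⟨Fintype.card L, by rw [h, sq]⟩
  rw [h, Nat.card_eq_fintype_card]
  exact Nat.pow_le_pow_right Fintype.card_pos (by omega)

/-- Either all field elements, or `|Y|^2` field elements, are small. -/
lemma sp_growth (hq : ¬ IsSquare (Fintype.card F)) (Sm : F → ℕ → Prop)
    (hmono : ∀ t i j, Sm t i → i ≤ j → Sm t j)
    (hmul : ∀ t s i j, Sm t i → Sm s j → Sm (t * s) (i + j))
    (hinv : ∀ t i, Sm t i → Sm t⁻¹ i) (hneg : ∀ t i, Sm t i → Sm (-t) (i + 2))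
    (hadd : ∀ t s i j, Sm t i → Sm s j → Sm (t + s) (i + j + 3))
    (Y : Finset F) (hY : ∀ y ∈ Y, Sm y 1) (hYc : Fintype.card F < Y.card ^ 3) :
    ∃ Λ : Finset F, (∀ t ∈ Λ, Sm t 36) ∧ (Λ.card = Fintype.card F ∨ Λ.card = Y.card ^ 2) := by
  classical
  set D : Set F := {t | ∃ a ∈ Y, ∃ b ∈ Y, ∃ c ∈ Y, ∃ e ∈ Y, t = (a - b) / (c - e)} with hD
  have hsub : ∀ a ∈ Y, ∀ b ∈ Y, Sm (a - b) 7 := by
    intro a ha b hb
    rw [sub_eq_add_neg]
    exact hadd _ _ _ _ (hY a ha) (hneg _ _ (hY b hb))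
  have hDs : ∀ t ∈ D, Sm t 14 := by
    rintro t ⟨a, ha, b, hb, c, hc, e, he, rfl⟩
    rw [div_eq_mul_inv]
    exact hmul _ _ _ _ (hsub a ha b hb) (hinv _ _ (hsub c hc e he))
  by_cases hall : ∀ t, t ∈ D
  · exact ⟨univ, fun t _ => hmono _ _ _ (hDs t (hall t)) (by norm_num), Or.inl card_univ⟩
  have hY2 : 1 < Y.card := by
    by_contra h
    have h1 : Y.card ^ 3 ≤ 1 ^ 3 := Nat.pow_le_pow_left (not_lt.mp h) 3
    have h2 : 1 < Fintype.card F := Fintype.one_lt_card
    omega
  obtain ⟨c, hc, e, he, hce⟩ := one_lt_card.mp hY2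
  have hce' : c - e ≠ 0 := sub_ne_zero.mpr hce
  have hex : ∃ t, t ∉ D ∧ Sm t 31 := by
    by_contra hcon
    push Not at hcon
    let L : Subfield F :=
      { carrier := D
        mul_mem' := fun {a b} ha hb => by
          by_contra h
          exact hcon _ h (hmono _ _ _ (hmul _ _ _ _ (hDs a ha) (hDs b hb)) (by norm_num))
        one_mem' := ⟨c, hc, e, he, c, hc, e, he, (div_self hce').symm⟩
        add_mem' := fun {a b} ha hb => by
          by_contra h
          exact hcon _ h (hadd _ _ _ _ (hDs a ha) (hDs b hb))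
        zero_mem' := ⟨c, hc, c, hc, c, hc, e, he, by simp⟩
        neg_mem' := by
          rintro _ ⟨a, ha, b, hb, c', hc', e', he', rfl⟩
          exact ⟨b, hb, a, ha, c', hc', e', he', by ring⟩
        inv_mem' := by
          rintro _ ⟨a, ha, b, hb, c', hc', e', he', rfl⟩
          exact ⟨c', hc', e', he', a, ha, b, hb, by rw [inv_div]⟩ }
    have hL : L ≠ ⊤ := by
      intro h
      apply hall
      intro t
      have : t ∈ L := h ▸ Subfield.mem_top t
      exact this
    have h1 := sp_subfield_cube hq L hL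
    have h2 : Y.card ≤ Nat.card L := by
      rw [← Nat.card_eq_finsetCard]
      refine Nat.card_le_card_of_injective
        (fun y : Y => (⟨(y.1 - e) / (c - e), y.1, y.2, e, he, c, hc, e, he, rfl⟩ : L)) ?_
      intro y y' h
      have h' : (y.1 - e) / (c - e) = (y'.1 - e) / (c - e) := congrArg Subtype.val h
      exact Subtype.ext (sub_left_injective ((div_left_inj' hce').mp h'))
    have h3 := Nat.pow_le_pow_left h2 3
    omega
  obtain ⟨t, htD, ht⟩ := hex
  refine ⟨(Y ×ˢ Y).image (fun x => x.1 + t * x.2), ?_, Or.inr ?_⟩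
  · intro s hs
    obtain ⟨x, hx, rfl⟩ := mem_image.mp hs
    obtain ⟨h1, h2⟩ := mem_product.mp hx
    exact hadd _ _ _ _ (hY _ h1) (hmul _ _ _ _ ht (hY _ h2))
  · rw [card_image_of_injOn, card_product, sq]
    intro x hx x' hx' h
    obtain ⟨h1, h2⟩ := mem_product.mp (mem_coe.mp hx)
    obtain ⟨h1', h2'⟩ := mem_product.mp (mem_coe.mp hx')
    simp only at h
    by_cases hy : x.2 = x'.2
    · rw [hy] at h
      exact Prod.ext (add_right_cancel h) hy
    · exfalso
      apply htD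
      refine ⟨x.1, h1, x'.1, h1', x'.2, h2', x.2, h2, ?_⟩
      have : x'.2 - x.2 ≠ 0 := sub_ne_zero.mpr (Ne.symm hy)
      field_simp
      linear_combination -h

end Growth

section Energy

lemma sp_card_sq_le {α β : Type*} [DecidableEq α] [DecidableEq β] (D : Finset α) (f : α → β) :
    (D.card : ℝ) ^ 2 ≤ (D.image f).card * ((D ×ˢ D).filter (fun x => f x.1 = f x.2)).card := by
  have h1 : (D.card : ℝ) = ∑ z ∈ D.image f, ((D.filter (fun x => f x = z)).card : ℝ) := by
    exact_mod_cast card_eq_sum_card_image f D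
  have h2 : (((D ×ˢ D).filter (fun x => f x.1 = f x.2)).card : ℝ) =
      ∑ z ∈ D.image f, ((D.filter (fun x => f x = z)).card : ℝ) ^ 2 := by
    have := card_eq_sum_card_fiberwise (f := fun x : α × α => f x.1)
      (s := (D ×ˢ D).filter (fun x => f x.1 = f x.2)) (t := D.image f) (by
        intro x hx
        exact mem_coe.mpr (mem_image_of_mem _ (mem_product.mp (mem_filter.mp hx).1).1))
    rw [this, Nat.cast_sum]
    refine sum_congr rfl fun z _ => ?_
    rw [sq, ← Nat.cast_mul, ← card_product]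
    congr 2
    ext x
    simp only [mem_filter, mem_product]
    constructor
    · rintro ⟨⟨⟨a, b⟩, c⟩, d⟩
      exact ⟨⟨a, d⟩, b, c ▸ d⟩
    · rintro ⟨⟨a, d⟩, b, c⟩
      exact ⟨⟨⟨a, b⟩, d.trans c.symm⟩, d⟩
  rw [h1, h2]
  exact sq_sum_le_card_mul_sum_sq

variable {F : Type*} [Field F] [DecidableEq F]

/-- Some dilate in `Λ` has a large difference set. -/
lemma sp_energy (X Λ : Finset F) (hΛ : Λ.Nonempty) {M : ℝ}
    (h : ∀ t ∈ Λ, ((X - t • X).card : ℝ) ≤ M) :
    (Λ.card : ℝ) * (X.card : ℝ) ^ 4 ≤ M * (Λ.card * (X.card : ℝ) ^ 2 + (X.card : ℝ) ^ 4) := by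
  classical
  set Q := (X ×ˢ X) ×ˢ (X ×ˢ X) with hQ
  set E : F → ℝ := fun t =>
    ((Q.filter (fun x => x.1.1 - t * x.1.2 = x.2.1 - t * x.2.2)).card : ℝ) with hE
  obtain ⟨t₀, ht₀⟩ := hΛ
  have hM : 0 ≤ M := le_trans (Nat.cast_nonneg _) (h t₀ ht₀)
  have h1 : ∀ t ∈ Λ, (X.card : ℝ) ^ 4 ≤ M * E t := by
    intro t ht
    have a1 := sp_card_sq_le (X ×ˢ X) (fun x => x.1 - t * x.2)
    have a2 : (X ×ˢ X).image (fun x => x.1 - t * x.2) ⊆ X - t • X := by
      intro z hz
      obtain ⟨x, hx, rfl⟩ := mem_image.mp hz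
      exact sub_mem_sub (mem_product.mp hx).1 (smul_mem_smul_finset (mem_product.mp hx).2)
    have a3 : (((X ×ˢ X).image (fun x => x.1 - t * x.2)).card : ℝ) ≤ M :=
      le_trans (by exact_mod_cast card_le_card a2) (h t ht)
    rw [card_product, Nat.cast_mul] at a1
    calc (X.card : ℝ) ^ 4 = ((X.card : ℝ) * X.card) ^ 2 := by ring
      _ ≤ _ := a1
      _ ≤ M * E t := mul_le_mul_of_nonneg_right a3 (Nat.cast_nonneg _)
  have h2 : ∑ t ∈ Λ, E t ≤ Λ.card * (X.card : ℝ) ^ 2 + (X.card : ℝ) ^ 4 := by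
    have e1 : ∑ t ∈ Λ, E t = ∑ x ∈ Q,
        ((Λ.filter (fun t => x.1.1 - t * x.1.2 = x.2.1 - t * x.2.2)).card : ℝ) := by
      simp only [hE, card_filter, Nat.cast_sum, Nat.cast_ite, Nat.cast_one, Nat.cast_zero]
      exact sum_comm
    have e2 : ∀ x ∈ Q, ((Λ.filter (fun t => x.1.1 - t * x.1.2 = x.2.1 - t * x.2.2)).card : ℝ) ≤
        (if x.1 = x.2 then (Λ.card : ℝ) else 0) + 1 := by
      intro x _
      split_ifs with hx
      · have : ((Λ.filter (fun t => x.1.1 - t * x.1.2 = x.2.1 - t * x.2.2)).card : ℝ) ≤ Λ.card := by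
          exact_mod_cast card_filter_le _ _
        linarith
      · rw [zero_add]
        have : (Λ.filter (fun t => x.1.1 - t * x.1.2 = x.2.1 - t * x.2.2)).card ≤ 1 := by
          refine card_le_one.mpr fun t ht s hs => ?_
          have b1 := (mem_filter.mp ht).2
          have b2 := (mem_filter.mp hs).2
          by_contra hts
          have b3 : (t - s) * (x.1.2 - x.2.2) = 0 := by linear_combination b2 - b1
          have b4 : x.1.2 = x.2.2 :=
            sub_eq_zero.mp ((mul_eq_zero.mp b3).resolve_left (sub_ne_zero.mpr hts))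
          rw [b4] at b1
          exact hx (Prod.ext (sub_left_injective b1) b4)
        exact_mod_cast this
    rw [e1]
    refine (sum_le_sum e2).trans (le_of_eq ?_)
    rw [sum_add_distrib, hQ, sum_product]
    simp only [sum_ite_eq, sum_const, card_product, nsmul_eq_mul, mul_one]
    rw [sum_congr rfl (fun x hx => if_pos hx)]
    simp only [sum_const, card_product, nsmul_eq_mul]
    push_cast
    ring
  have h3 : ∑ _t ∈ Λ, (X.card : ℝ) ^ 4 ≤ ∑ t ∈ Λ, M * E t := sum_le_sum h1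
  rw [sum_const, nsmul_eq_mul, ← mul_sum] at h3
  exact h3.trans (mul_le_mul_of_nonneg_left h2 hM)

end Energy

end Crest.Agent.R34
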